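import Crest.Agent.N255.En.Defs
import Crest.Agent.N255.Cs.Vt
import Crest.Agent.N255.Core.GenH

/-!
# Row 255 (helper74): the interface `Geo` of the producer, its target `Wls`, labellings `Lab`
-/

set_option autoImplicit false
open Set
open scoped Pointwise

noncomputable section

namespace Crest.Agent.N255.Ma
open Tp Nv Pt Lv En

/-- the free group on three letters -/
abbrev F3 : Type := FreeGroup (Fin 3)

/-- three half edges at the vertex `v`, one in each direction; `t i` is the orientation -/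
def st (v : F3) (t : Fin 3 → Bool) (i : Fin 3) : Ed (Fin 3) := ⟨v, (i, t i)⟩

@[simp] theorem st_v (v : F3) (t : Fin 3 → Bool) (i : Fin 3) : (st v t i).v = v := rfl

@[simp] theorem st_k (v : F3) (t : Fin 3 → Bool) (i : Fin 3) : (st v t i).k = (i, t i) := rfl

theorem st_smul (f v : F3) (t : Fin 3 → Bool) (i : Fin 3) : f • st v t i = st (f * v) t i := rfl

theorem st_inj (v : F3) (t : Fin 3 → Bool) : Function.Injective (st v t) := fun _ _ h =>
  congrArg (fun e => e.k.1) h

theorem st_bey (v : F3) (t : Fin 3 → Bool) {i j : Fin 3} (h : i ≠ j) :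
    Bey (rev (st v t i)) (st v t j) :=
  bey_same rfl fun e => h (st_inj v t e).symm

/-- the star as a finite set -/
def stJ (v : F3) (t : Fin 3 → Bool) : Finset (Ed (Fin 3)) := Finset.univ.map ⟨st v t, st_inj v t⟩

theorem mem_stJ {v : F3} {t : Fin 3 → Bool} {e : Ed (Fin 3)} : e ∈ stJ v t ↔ ∃ i, st v t i = e := by
  simp [stJ]

theorem face_stJ (v : F3) (t : Fin 3 → Bool) : Face (stJ v t) := .inl fun e he e' he' n => by
  obtain ⟨i, rfl⟩ := mem_stJ.1 he
  obtain ⟨j, rfl⟩ := mem_stJ.1 he'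
  exact st_bey v t fun h => n (by rw [h])

/-- the positively oriented one of `e`, `rev e` -/
def pe {ι : Type} (e : Ed ι) : Ed ι := if e.k.2 then e else rev e

theorem pos_pe {ι : Type} (e : Ed ι) : pos (pe e) := by
  unfold pe; split_ifs with h
  · exact h
  · exact (pos_rev e).2 h

theorem pe_rev {ι : Type} (e : Ed ι) : pe (rev e) = pe e := by
  unfold pe; rcases h : e.k.2 <;> simp [op, h]

theorem pe_smul {ι : Type} (f : FreeGroup ι) (e : Ed ι) : pe (f • e) = f • pe e := by
  unfold pe; rcases h : e.k.2 <;> simp [rev_smul]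

variable {S : Type} [MulAction F3 S]

/-- the quadratic labels at a star: `δ y i j = x i ∪ x j` for `x i = mer (st v t i)`; on the wall `s` the
cochain `y i j` is `± lc3 i j s` times the cocycle dual to the longitude; `y` vanishes two chambers away -/
structure Gm (w : Wl (Fin 3) S) (M : Md w) where
  y : F3 → (Fin 3 → Bool) → Fin 3 → Fin 3 → S → S → ℤ
  ε : F3 → (Fin 3 → Bool) → ℤˣ
  y_add : ∀ v t i j a b c, a ∈ w.Mod (stJ v t) → b ∈ w.Mod (stJ v t) → c ∈ w.Mod (stJ v t) →
    Cl w.Γ a b → Cl w.Γ b c → Cl w.Γ a c →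
    y v t i j a c = y v t i j a b + y v t i j b c + M.mer (st v t i) a b * M.mer (st v t j) b c
  y_wall : ∀ v t i j s a b, a ∈ w.T (st v t s) → b ∈ w.T (st v t s) → Cl w.Γ a b → y v t i j a b =
    (if i = s ∧ j = s then M.mer (st v t s) a b * (M.mer (st v t s) a b - 1) / 2 else 0) +
      Cs.lc3 i j s * (ε v t : ℤ) * M.mer (rev (st v t s)) a b
  y_zero : ∀ v t i j e a b, Out v 1 e → a ∉ w.B (rev e) → b ∉ w.B (rev e) → Cl w.Γ a b →
    y v t i j a b = 0

/-- **the geometric input of the producer** (to be used with `T2Space X`, `ChartedSpace (EE 4) X`,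
`SecondCountableTopology X`, `F.FiniteIndex`) -/
structure Geo (F : Subgroup F3) (k : Type) [Field k] (S : Type) [MulAction F3 S] (X : Type)
    [TopologicalSpace X] [MulAction F X] [ContinuousConstSMul F X] where
  w : Wl (Fin 3) S
  M : Md w
  L : Gm w M
  E : End w F k X
  O : Ori k 3 X
  nd : O.ND
  ori : ∀ (f : F) K z, IsCompact K → O.Fund K z → O.Fund (f • K) (push k (Uc.tr f) z)
  u : kˣ
  deg : E.toLev.Deg M O u
  acy : Acy k (univ : Set X) univ

/-- an `F`-invariant orientation of the tree such that no vertex receives edges of all three directions -/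
def Lab (F : Subgroup F3) : Prop :=
  ∃ b : Ed (Fin 3) → Bool, (∀ f ∈ F, ∀ e, b (f • e) = b e) ∧ (∀ e, b (rev e) = !b e) ∧
    ∀ v t, ∃ i, b (st v t i) = false

theorem not_lab_top : ¬Lab ⊤ := by
  rintro ⟨b, h1, h2, h3⟩
  obtain ⟨i, hi⟩ := h3 1 fun i => b ⟨1, (i, true)⟩
  rcases h : b ⟨1, (i, true)⟩
  · have e := h2 ⟨1, (i, true)⟩
    have e' := h1 (x (i, true)) trivial ⟨1, (i, false)⟩
    simp only [st, h] at hi
    simp [rev, hd, h, hi] at e e'
    simp [e] at e'
  · simp [st, h] at hi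

open N255.Core in
/-- **the target of the producer**: one wall for each `F`-orbit of unoriented edges (side `true` = behind
the positive orientation), vertex identities at all stars -/
structure Wls (F : Subgroup F3) (p : ℕ) [Fact p.Prime] (Γ : Type) [AddCommGroup Γ] (δ : Γ) where
  Q : Type
  q : Ed (Fin 3) → Q
  q_smul : ∀ f ∈ F, ∀ e, q (f • e) = q e
  q_rev : ∀ e, q (rev e) = q e
  s : Q → Type
  fin : ∀ c, Fintype (s c)
  w : ∀ c, Wall p Γ δ (s c)
  N : ℕ
  La : ℕ
  D : ∀ c, ZMod p → s c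
  hD : ∀ c d, (w c).kd (D c d) = none
  pos : ∀ c x, 0 < N + (w c).F x
  le : ∀ c x, (w c).kd x = none → N + (w c).F x ≤ La
  odd : Odd La
  even : ∀ c x, Even (N + (w c).F x)
  m0 : ZMod p
  vx : ∀ v t, ∃ (V : Type) (_ : Fintype V) (x : VxH (fun i => w (q (st v t i))) t N La V),
    ∀ d : Fin 3 → ZMod p, ∑ i, (if t i = true then d i else m0 - d i) = m0 →
      x.cub (fun i => D (q (st v t i)) (d i)) ≠ 0

open N255.Core in
theorem Wls.lab {F : Subgroup F3} {p : ℕ} [Fact p.Prime] {Γ : Type} [AddCommGroup Γ] {δ : Γ}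
    (hV : VertexH) (hp : p ≠ 2) (W : Wls F p Γ δ) : Lab F := by
  classical
  let _ := W.fin
  have hs : ∀ c, ∃ b, (W.w c).Strong W.N W.La b (W.D c) := fun c =>
    (strong_orG N255.Ts.dichG_holds hp (W.w c) W.N W.odd.pos (W.hD c)).elim (fun h => ⟨_, h⟩)
      fun h => ⟨_, h⟩
  choose sd hsd using hs
  refine ⟨fun e => sd (W.q e) == e.k.2, fun f hf e => by simp [W.q_smul f hf], fun e => ?_,
    fun v t => ?_⟩
  · simp only [W.q_rev, rev_k, op]
    cases sd (W.q e) <;> cases e.k.2 <;> rfl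
  by_contra hc
  have ht : ∀ i, sd (W.q (st v t i)) = t i := fun i => by
    simpa using fun h => hc ⟨i, h⟩
  obtain ⟨V, _, x, hx⟩ := W.vx v t
  exact no_threeH hV x (fun i => W.hD _) (fun i d => (W.w _).gh_of W.N W.La (W.hD _ d) (W.pos _)
    (W.le _) (Or.inr ⟨W.odd, W.even _⟩)) hx fun i => ht i ▸ hsd _

/-- **the producer** -/
def WlsS : Prop :=
  ∀ (F : Subgroup F3) [F.FiniteIndex] (S : Type) [MulAction F3 S] (X : Type) [TopologicalSpace X]
    [T2Space X] [ChartedSpace (EE 4) X] [SecondCountableTopology X] [MulAction F X]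
    [ContinuousConstSMul F X], Geo F (ZMod 3) S X →
      ∃ (Γ : Type) (_ : AddCommGroup Γ) (δ : Γ), Nonempty (Wls F 3 Γ δ)

/-- producer and core together -/
def PrdS : Prop :=
  ∀ (F : Subgroup F3) [F.FiniteIndex] (S : Type) [MulAction F3 S] (X : Type) [TopologicalSpace X]
    [T2Space X] [ChartedSpace (EE 4) X] [SecondCountableTopology X] [MulAction F X]
    [ContinuousConstSMul F X], Geo F (ZMod 3) S X → Lab F

theorem prdS_of (hV : N255.Core.VertexH) (h : WlsS) : PrdS := fun F _ S _ X _ _ _ _ _ _ g => by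
  obtain ⟨Γ, _, δ, ⟨W⟩⟩ := h F S X g
  exact W.lab hV (by decide)

end Crest.Agent.N255.Ma

end
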