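import Crest.Agent.N255.Ma.Master
import Crest.Agent.N255.Dg.Inst
import Crest.Agent.N255.En.Pa1
import Crest.Agent.N255.En.L1
import Crest.Agent.N255.En.LevG
import Crest.Agent.N255.En.MyD

/-!
# Row 255 / 233 (helper32): the geometric side `GeoS`
-/

set_option autoImplicit false
set_option linter.unusedSectionVars false

noncomputable section

namespace Crest.Agent.N255.Ma
open Set Tp Uc Gs Ce Fa Lv Pt En
open scoped Pointwise

section gen
variable {S K F0 Nd' Ed' : Type} [DecidableEq S] [Group F0] [MulAction F0 Nd'] [MulAction F0 Ed']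
  [LinearOrder K] [Finite K] {M : Mir S K F0 Nd' Ed'} {G : Subgroup M.G}
  {T : Type} [TopologicalSpace T] [MulAction G T]

/-- the action of the core group -/
theorem exists_act (g : GM 4 G T) (o : Vt M) (F : Subgroup F0) (hF : ∀ f ∈ F, inF M f ∈ G) :
    ∃ (_ : MulAction F T) (_ : ContinuousConstSMul F T),
      haveI := g.cont; Nonempty (Av G F T) := by
  have := g.cont
  let φ : F →* G := ((inF M).comp F.subtype).codRestrict G fun f => hF f.1 f.2
  let _ : MulAction F T := MulAction.compHom T φ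
  obtain ⟨P⟩ := g.exists_pu
  obtain ⟨E, -⟩ := exists_av P o φ (fun _ => rfl) (fun _ _ => rfl) g.free
  exact ⟨_, ⟨fun f => continuous_const_smul (φ f)⟩, ⟨E⟩⟩

variable [G.FiniteIndex] [ContinuousConstSMul G T] {K₀ : Set T} {h : FD 4 G K₀} {k : Type} [Field k]
  {L : Gs.Lab G (M.ug.res G).X} (H : M.Cham)

theorem ori_nd (g : Mp (cell (M.ug.res G).fr k L) (h.sing k)) : (ori g (Dg.lfc G H k)).ND := by
  have := h.gm.t2
  obtain ⟨_⟩ := h.gm.chart
  exact ((qd_univ H).res G).nd g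

theorem ori_inv (g : Mp (cell (M.ug.res G).fr k L) (h.sing k)) {F : Subgroup F0} [MulAction F T]
    [ContinuousConstSMul F T] (E : Av G F T) (f : F) (C : Set T) (z : Tp.Ch k 4 T) (hC : IsCompact C)
    (hz : (ori g (Dg.lfc G H k)).Fund C z) :
    (ori g (Dg.lfc G H k)).Fund (f • C) (push k (Uc.tr f) z) := by
  have e : (Uc.tr f : C(T, T)) = Uc.tr (E.φ f) := ContinuousMap.ext (E.act f)
  have e' : f • C = E.φ f • C := image_congr fun x _ => E.act f x
  rw [e, e']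
  exact ori_smul g _ (fun γ x => congrArg Int.cast (H.oc_smul γ.1 x.1)) _ hC hz

end gen

section tm
variable {S K : Type} [DecidableEq S] [Nonempty S] [MulAction F3 S] [LinearOrder K] [Finite K]
  {M : Mir S K F3 (Nd (Fin 3)) (Ed (Fin 3))} {w : Wl (Fin 3) S}

/-- **the geometric side for any mirror model over the tree** -/
theorem geoG (Z : TM M w) (Lo : Ch.Loc M) {H : M.Cham} (hH : H.or = Lo.or) {m : En.Md w} (L : Gm w m)
    (u : ℤˣ) (hw : ∀ e, ∃ e', w.T e = M.sp (M.tgt e') ∧ (∀ a ∈ M.sp (M.src (Lo.op e')), a ∉ w.B (rev e)) ∧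
      (∀ a ∈ M.sp (M.src e'), a ∉ w.B e) ∧
      Md.p2 M e' (Lo.ω e') (fun a b c => m.mer e a b * m.mer (rev e) b c) = u)
    {G : Subgroup M.G} [G.FiniteIndex] {T : Type} [TopologicalSpace T] [MulAction G T] (g : GM 4 G T)
    (F : Subgroup F3) (hF : ∀ f ∈ F, inF M f ∈ G) : HasGeo F T := by
  have := g.cont
  obtain ⟨_, _, ⟨E⟩⟩ := exists_act g (1, ⟨1, none⟩) F hF
  have := gm_countable g
  obtain ⟨K₀, h⟩ := exists_FD g
  obtain ⟨c, -, h1⟩ := pa1_tm Z H h E (ZMod 3)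
  obtain ⟨s⟩ := exists_slow c
  have t := tlG Z h E s H (ZMod 3) (h1 c s (fun _ => le_rfl) _ rfl rfl
    (pa0_of H (naG Z) h s E.P E.o _ _ Z.Γ_eq _ (fun _ => rfl) fun _ _ => rfl))
  obtain ⟨L'⟩ := nonempty_lab (M.ug.res G).fr
  obtain ⟨g0⟩ := exists_mp (cell (M.ug.res G).fr (ZMod 3) L') (h.sing (ZMod 3))
  have d := (Dg.degA_loc Lo hH (Dg.dt_av H (Dg.sp_fin Lo) g0 (Dg.lfc G H _) E (levG Z h E s) Z.Γ_eq
    (fun _ => rfl) fun d => ⟨4 * d, fun _ _ a b => Z.lb_init' b a⟩) Z.Γ_eq m u hw).deg (by norm_num)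
  exact ⟨_, _, S, _, ⟨⟨w, m, L, t.toEnd, _, ori_nd H g0, ori_inv H g0 E, _, d, g.acy' _⟩⟩⟩

/-- the same with the model number as the only input -/
theorem geoG1 (Z : TM M w) (Lo : Ch.Loc M) {H : M.Cham} (hH : H.or = Lo.or) (ho : Lo.op = rev)
    {m : En.Md w} (L : Gm w m) (u : ℤˣ)
    (hp : ∀ e, Md.p2 M e (Lo.ω e) (fun a b c => m.mer e a b * m.mer (rev e) b c) = u)
    {G : Subgroup M.G} [G.FiniteIndex] {T : Type} [TopologicalSpace T] [MulAction G T] (g : GM 4 G T)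
    (F : Subgroup F3) (hF : ∀ f ∈ F, inF M f ∈ G) : HasGeo F T :=
  have k : ∀ e, ∀ a ∈ M.sp (M.src e), a ∉ w.B e := fun e a ha c => by
    rw [Z.src_eq] at ha
    exact not_hs_v e ((Z.mem_B _ _).1 c _ ((Z.sp_none _ _).1 ha))
  geoG Z Lo hH L u (fun e => ⟨e, Set.ext fun a => by rw [Z.tgt_eq]; exact (Z.sp_tgt e a).symm,
    ho ▸ k (rev e), k e, hp e⟩) g F hF

end tm

/-- **the geometric side for the data of row 255** and any subgroup of finite index -/
theorem geoD {G : Subgroup Da.D.mir.G} [G.FiniteIndex] {T : Type} [TopologicalSpace T] [MulAction G T]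
    (g : GM 4 G T) (F : Subgroup F3) (hF : ∀ f ∈ F, inF Da.D.mir f ∈ G) : HasGeo F T := by
  have := g.cont
  obtain ⟨_, _, ⟨E⟩⟩ := exists_act g (1, ⟨1, none⟩) F hF
  have := gm_countable g
  obtain ⟨K₀, h⟩ := exists_FD g
  obtain ⟨c, s, ⟨t⟩⟩ := exists_tl (w := wl) ⟨rfl, rfl, rfl⟩ h E Da.cham (ZMod 3)
  obtain ⟨L'⟩ := nonempty_lab (Da.D.mir.ug.res G).fr
  obtain ⟨g0⟩ := exists_mp (cell (Da.D.mir.ug.res G).fr (ZMod 3) L') (h.sing (ZMod 3))
  exact ⟨_, _, _, _, ⟨⟨wl, md, gmD, t.toEnd, _, ori_nd Da.cham g0, ori_inv Da.cham g0 E, _,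
    Dg.deg_D g0 _ E _ rfl (fun _ => rfl) (fun _ => rfl) (fun _ => rfl) (fun _ => rfl) md
      fun _ _ ha _ hb c => mr_wall ha hb c, g.acy' _⟩⟩⟩

/-- **the geometric side of row 255** -/
theorem geoS_holds : GeoS := fun _ _ _ g => geoD g ⊤ fun _ _ => trivial

/-- row 255 from the producer alone -/
theorem noMf_of_prd (hP : PrdS) : Ce.NoMf Da.D.mir.G := noMf_of geoS_holds hP

end Crest.Agent.N255.Ma

end
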