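import Crest.Agent.N255.Ma.Geo
import Crest.Agent.N255.Da.Fc
import Crest.Agent.N255.Uc.Cov

/-!
# Row 255 (helper74): the master theorem
-/

set_option autoImplicit false

namespace Crest.Agent.N255.Ma
open Tp Uc

/-- a space carries a `Geo` structure for some action of `F` -/
def HasGeo (F : Subgroup F3) (X : Type) [TopologicalSpace X] : Prop :=
  ∃ (_ : MulAction F X) (_ : ContinuousConstSMul F X) (S : Type) (_ : MulAction F3 S),
    Nonempty (Geo F (ZMod 3) S X)

theorem PrdS.lab (h : PrdS) {G T : Type} [Group G] [TopologicalSpace T] [MulAction G T] (g : GM 4 G T)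
    {F : Subgroup F3} [F.FiniteIndex] (e : HasGeo F T) : Lab F := by
  obtain ⟨_, _, S, _, ⟨e⟩⟩ := e
  obtain ⟨_⟩ := g.chart
  have := g.t2
  have := g.sc
  exact h F S T e

/-- **the geometric side**: the universal cover of a manifold with group `G` carries a `Geo` structure -/
def GeoS : Prop :=
  ∀ (T : Type) [TopologicalSpace T] [MulAction (⊤ : Subgroup Da.D.mir.G) T],
    GM 4 (⊤ : Subgroup Da.D.mir.G) T → HasGeo ⊤ T

theorem noMf_of (hG : GeoS) (hP : PrdS) : Ce.NoMf Da.D.mir.G := by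
  rintro ⟨M, i1, i2, h1, h2, h3, h4, h5, x, ⟨φ⟩⟩
  obtain ⟨T, _, _, g⟩ := gm_of (G := (⊤ : Subgroup Da.D.mir.G))
    ⟨M, i1, i2, h1, h2, h3, h4, h5, x, ⟨φ.trans Subgroup.topEquiv.symm⟩⟩
  exact not_lab_top (hP.lab g (hG T g))

/-- **row 255** from the geometric side, the producer and the vertex theorem -/
theorem s0393_of (hG : GeoS) (hW : WlsS) (hV : N255.Core.VertexH) :
    ∃ (G : Type) (_ : Group G), Group.IsFinitelyPresented G ∧
      (∃ (N : ℕ) (K : Geometry.SimplicialComplex ℝ (EuclideanSpace ℝ (Fin N))),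
        K.faces.Finite ∧ (∀ s ∈ K.faces, s.card ≤ 5) ∧ PathConnectedSpace K.space ∧
        (∀ n : ℕ, 2 ≤ n → ∀ x : K.space, Subsingleton (HomotopyGroup (Fin n) K.space x)) ∧
        ∃ x : K.space, Nonempty (FundamentalGroup K.space x ≃* G)) ∧
      (∀ i : ℕ, i ≠ 4 → CategoryTheory.Limits.IsZero (groupCohomology (Rep.leftRegular ℤ G) i)) ∧
      Nonempty (groupCohomology (Rep.leftRegular ℤ G) 4 ≃+ ℤ) ∧
      (∀ g : G, (groupCohomology.functor ℤ G 4).map
          ((Rep.leftRegular ℤ G).leftRegularHom (MonoidAlgebra.single g (1 : ℤ))) =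
        CategoryTheory.CategoryStruct.id (groupCohomology (Rep.leftRegular ℤ G) 4)) ∧
      ¬ ∃ (M : Type) (_ : TopologicalSpace M) (_ : ChartedSpace (EuclideanSpace ℝ (Fin 4)) M),
        T2Space M ∧ SecondCountableTopology M ∧ CompactSpace M ∧ ConnectedSpace M ∧
        (∀ n : ℕ, 2 ≤ n → ∀ x : M, Subsingleton (HomotopyGroup (Fin n) M x)) ∧
        ∃ x : M, Nonempty (FundamentalGroup M x ≃* G) :=
  Da.s0393_of (noMf_of hG (prdS_of hV hW))

/-- **row 255** from the geometric side, and `PrdS` -/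
theorem s0393_prd (hG : GeoS) (hP : PrdS) :
    ∃ (G : Type) (_ : Group G), Group.IsFinitelyPresented G ∧
      (∃ (N : ℕ) (K : Geometry.SimplicialComplex ℝ (EuclideanSpace ℝ (Fin N))),
        K.faces.Finite ∧ (∀ s ∈ K.faces, s.card ≤ 5) ∧ PathConnectedSpace K.space ∧
        (∀ n : ℕ, 2 ≤ n → ∀ x : K.space, Subsingleton (HomotopyGroup (Fin n) K.space x)) ∧
        ∃ x : K.space, Nonempty (FundamentalGroup K.space x ≃* G)) ∧
      (∀ i : ℕ, i ≠ 4 → CategoryTheory.Limits.IsZero (groupCohomology (Rep.leftRegular ℤ G) i)) ∧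
      Nonempty (groupCohomology (Rep.leftRegular ℤ G) 4 ≃+ ℤ) ∧
      (∀ g : G, (groupCohomology.functor ℤ G 4).map
          ((Rep.leftRegular ℤ G).leftRegularHom (MonoidAlgebra.single g (1 : ℤ))) =
        CategoryTheory.CategoryStruct.id (groupCohomology (Rep.leftRegular ℤ G) 4)) ∧
      ¬ ∃ (M : Type) (_ : TopologicalSpace M) (_ : ChartedSpace (EuclideanSpace ℝ (Fin 4)) M),
        T2Space M ∧ SecondCountableTopology M ∧ CompactSpace M ∧ ConnectedSpace M ∧
        (∀ n : ℕ, 2 ≤ n → ∀ x : M, Subsingleton (HomotopyGroup (Fin n) M x)) ∧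
        ∃ x : M, Nonempty (FundamentalGroup M x ≃* G) :=
  Da.s0393_of (noMf_of hG hP)

end Crest.Agent.N255.Ma
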