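import Crest.Agent.N255.Vl.Lin
import Crest.Agent.N255.Wg.Df
import Crest.Agent.N255.Wn.WdM
import Crest.Agent.N255.Sg.Vz
import Crest.Agent.N255.Ms.Bas
import Crest.Agent.N255.Vz.Gz
import Crest.Agent.N255.Jt.O

/-!
# Row 255 (helper32): the data `Vd` at a vertex, the vertex family, its zones and ideals
-/

set_option autoImplicit false
open Set Module Sum

noncomputable section

namespace Crest.Agent.N255.Ma
open Tp Nv Pt Lv En Wn Le Cs Cs.Tw _root_.N255.Core _root_.N255.Dr _root_.N255.Dr.O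

variable {F : Subgroup F3} {S : Type} [MulAction F3 S] {X : Type} [TopologicalSpace X]
  [MulAction F X] [ContinuousConstSMul F X]

/-- the kind of a class -/
def Ty.kb {J : Type} (τ : Ty J) (x : J ⊕ Bool) : Option Bool :=
  x.elim (fun j => some (τ.kd j)) fun c => if c then none else some false

/-- the scale of a class -/
def Ty.sb {J : Type} (τ : Ty J) (x : J ⊕ Bool) : ℕ := x.elim τ.sc fun _ => 0

/-- all classes at a vertex -/
abbrev Cl3 (J : Fin 3 → Type) : Type := Σ i, J i ⊕ Bool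

section scalar
variable {J : Fin 3 → Type} [∀ i, Fintype (J i)]

/-- the far classes: far cut classes and the `w` of the `M` slots -/
def Fr (τ : ∀ i, Ty (J i)) (o : Fin 3 → Bool) : Type := {q : Cl3 J // (τ q.1).kb q.2 = some (!o q.1)}

instance (τ : ∀ i, Ty (J i)) (o : Fin 3 → Bool) : Fintype (Fr τ o) := by
  classical exact Subtype.fintype _

variable {k : Type} [Field k] {g : Geo F k S X} {u R₀ : ℝ} {n : ℕ} {τ : ∀ i, Ty (J i)} {v : F3}
  {h o : Fin 3 → Bool}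

/-- the part of the zones of a wall on which the parametrices agree -/
def Wd.Wr {J : Type} [Fintype J] {τ : Ty J} {e : Ed (Fin 3)} {o : Bool} (ω : Wd g u R₀ n τ e o) :
    Tp.Sb X := (ω.Zk 0).inf (On (hi (g.E.s e) (ω.l 2)))

/-- the core zone -/
def Ocr (ω : ∀ i, Wd g u R₀ n (τ i) (st v h i) (o i)) : Set X :=
  Vc.core (Sg.sv g.E.toLev v h) fun i => (ω i).l 2

/-- the parametrix at a vertex -/
structure VF (ω : ∀ i, Wd g u R₀ n (τ i) (st v h i) (o i)) where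
  HG : Co k 2 X →ₗ[k] Co k 1 X
  mu : ∀ i, J i → Dual k (Co k 2 X)
  EG : Submodule k (Co k 2 X)
  cc : ∀ f, HG f ∈ CC k X 1
  nf : ∀ f, f - cob k (HG f) ∈ EG
  core : ∀ f ∈ EG, ∀ θ ∈ CC k X 1, f - cob k θ ∈ vo k g.E.cv (Ocr ω) 2 → f ∈ vo k g.E.cv (Ocr ω) 2
  zn : ∀ i, ∀ U ∈ (ω i).Z 0, ∀ f ∈ EG, ∀ θ ∈ CC k X 1,
    f - cob k θ ∈ vo k g.E.cv U 2 → f ∈ vo k g.E.cv U 2
  agr : ∀ i f, HG f - (ω i).H f - ∑ j, ((ω i).lam j f + mu i j f) • (ω i).ct j ∈ (ω i).Wr.van k k 1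
  mu0 : ∀ i j, mu i j ≠ 0 → (τ i).kd j ≠ o i ∧ (τ i).sc j = 0
  low : ∀ f ∈ vo k g.E.cv (Ocr ω) 2, (∀ i, f ∈ ((ω i).Zk 0).van k k 2) → HG f = 0 ∧ ∀ i j, mu i j f = 0

variable (g u R₀ n τ v h o) in
/-- **the scalar data at a vertex** -/
structure Vd where
  ω : ∀ i, Wd g u R₀ n (τ i) (st v h i) (o i)
  n0 : 0 < n
  dep : ∀ i j, i ≠ j → (ω i).Dep (ω j)
  c : Fin 3 → ℝ
  ac : ∀ i, (ω i).a < c i
  cl : ∀ i, c i < (ω i).l 0
  lin : Vl.Lin ω c
  vf : VF ω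

namespace Vd
variable (D : Vd g u R₀ n τ v h o)

/-- the levels of the three walls -/
abbrev s (_D : Vd g u R₀ n τ v h o) (i : Fin 3) : C(X, ℝ) := g.E.s (st v h i)

theorem u_lt_c (i : Fin 3) : u < D.c i := (D.ω i).ua.trans_lt (D.ac i)

theorem c_pos (i : Fin 3) : 0 < D.c i := (D.ω i).u0.trans (D.u_lt_c i)

/-- the zone system -/
def L : Vz.Lv X (Fin 3) where
  s := Sg.sv g.E.toLev v h
  l i := (D.ω i).l
  r i := (D.ω i).r n
  c := D.c
  n := n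
  ml i := (D.ω i).win.ml
  lt i m := (D.ω i).win.lt m n
  c0 := D.c_pos
  cl i := (D.cl i).le
  sep _ _ e x := Sg.s_st _ e.symm x

/-- the zones -/
abbrev Ix : Type := D.L.Ix

/-- the small simplices of a zone -/
abbrev P (z : D.Ix) : Tp.Sb X := D.L.P g.E.cv z

/-- the regions beyond the longitude cuts -/
def C (i : Fin 3) : Set X := hi (D.s i) (D.c i)

/-- the end without chains -/
def V0 : Vt k X o :=
  Lev.vt (D.ω 0).big g.L (e := Sg.em v h o) (fun _ => rfl) 0 (fun _ => zero_mem _)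
    (fun _ => map_zero _) 0 (zero_mem _) (by simp)

/-- the cut class of the holonomy `w` (used for `M` slots) -/
def ew (i : Fin 3) : Co k 1 X := Wv.ct (D.C i) (D.ω i).xw

/-- the primitives of the sources -/
def pq (q : Cl3 J) : Co k 1 X :=
  q.2.elim (D.ω q.1).ct fun c => if c = false ∧ o q.1 = true then D.ew q.1 else 0

/-- the sources -/
def qa (q : Cl3 J) : Co k 2 X := cob k (D.pq q)

omit [∀ i, Fintype (J i)] in
theorem _root_.Crest.Agent.N255.Ma.Fr.cases (a : Fr τ o) :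
    (∃ i j, a.1 = ⟨i, inl j⟩ ∧ (τ i).kd j ≠ o i) ∨ ∃ i, a.1 = ⟨i, inr false⟩ ∧ o i = true := by
  obtain ⟨⟨i, j | _ | _⟩, e⟩ := a
  · exact .inl ⟨i, j, rfl, by simp only [Ty.kb, elim_inl, Option.some.injEq] at e; simp [e]⟩
  · exact .inr ⟨i, rfl, by simpa [Ty.kb] using e⟩
  · simp [Ty.kb] at e

/-- the levels of the cuts -/
def tq (q : Cl3 J) : ℝ := q.2.elim (fun j => (D.ω q.1).l ((τ q.1).sc j + 1)) fun _ => D.c q.1

/-- the uncut classes -/
def hq (q : Cl3 J) : Co k 1 X := q.2.elim (D.ω q.1).h fun _ => (D.ω q.1).xw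

theorem pq_far (a : Fr τ o) : D.pq a.1 = Wv.ct (hi (D.s a.1.1) (D.tq a.1)) (D.hq a.1) := by
  obtain ⟨i, j, e, f⟩ | ⟨i, e, f⟩ := a.cases <;> rw [e]
  · show Wv.ct _ _ = _
    rw [Vl.B_far f]; rfl
  · exact if_pos ⟨rfl, f⟩

theorem xw_Z {i : Fin 3} (f : o i = true) :
    (D.ω i).xw ∈ (g.E.Sb (hi (D.s i) (D.ω i).a)).Z k k 1 := by
  refine Sb.Z_mono (SB_mono fun x hx => ?_) (D.ω i).bz.cl
  simp only [f, me_true, if_true]
  show g.E.s _ x < _
  rw [g.E.s_rev]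
  exact sub_lt_sub_left hx 1

/-- the located sources -/
def src : Vz.Src D.L k g.E.cv (Fr τ o) where
  sl a := a.1.1
  pa a := (τ a.1.1).sb a.1.2
  t a := D.tq a.1
  η a := D.pq a.1
  h a := D.hq a.1
  pa_lt := by rintro ⟨⟨i, j | c⟩, -⟩; exacts [(D.ω i).sc_lt j, D.n0]
  c_le := by rintro ⟨⟨i, j | c⟩, -⟩; exacts [(D.cl i).le.trans (Vl.l_le _ (Nat.zero_le _)), le_rfl]
  le := by rintro ⟨⟨i, j | c⟩, -⟩; exacts [le_rfl, (D.cl i).le.trans (Vl.l_le _ (Nat.zero_le _))]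
  eq := by rintro ⟨⟨i, j | c⟩, _⟩ e; exacts [rfl, (e rfl).elim]
  l1 a := D.pq_far a ▸ fun σ q => Wv.ct_van σ fun x hx y =>
    lt_asymm (show D.s a.1.1 x < D.tq a.1 from q.1 hx) y
  l2 a := D.pq_far a ▸ fun σ q => Wv.ct_sub σ q.1
  l3 a := by
    obtain ⟨i, j, e, f⟩ | ⟨i, e, f⟩ := a.cases <;> rw [e]
    · have := ((D.ω i).mem j).2
      rw [show Bs _ _ _ _ _ = _ from Vl.B_far f _] at this
      exact Sb.Z_mono Sb.inf_le_left this
    · exact Sb.Z_mono (SB_mono (hi_mono (D.ac i).le)) (D.xw_Z f)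

/-- the deep zones -/
abbrev dp : D.Ix → Prop := D.L.dp

/-- the far parts of the zones -/
abbrev Fz (K : Set X) : D.Ix → Tp.Sb X := D.L.Fz g.E.cv K

/-- the zones with the located sources, no side conditions -/
abbrev Y0 (ρ : D.Ix → Ch k 4 X) : Lz.Gz k X D.Ix (Fr τ o) (Fin 3) := D.src.gz0 0 ρ

/-- **the zones with the located sources** -/
def Y (K : Set X) (ρ : D.Ix → Ch k 4 X) : Lz.Gz k X D.Ix (Fr τ o) (Fin 3) := D.src.gz 0 K ρ

theorem P_ce (i : Fin 3) : D.P (D.L.ce i) = (D.ω i).Pc := congrArg (SB g.E.cv) Vz.Lv.zs_ce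

theorem Y_q (K : Set X) (ρ : D.Ix → Ch k 4 X) (a : Fr τ o) : (D.Y K ρ).q a = D.qa a.1 := rfl

variable {R : ℝ} {σ : Fin 3 → Ch k 3 X}

theorem st' (hs : ∀ i, (D.ω i).Sig R (σ i)) :
    Sg.St g.E.toLev (fun i => (D.ω i).l n) (fun i => (D.ω i).r n) R v h o g.O σ :=
  ⟨fun i => (hs i).wr, fun i => (hs i).sm⟩

/-- the chains of the vertex region -/
abbrev Rc (K : Set X) (R : ℝ) (σ : Fin 3 → Ch k 3 X) : Type :=
  Sg.Rc g.E.toLev (fun i => (D.ω i).l n) (fun i => (D.ω i).r n) v h o g.O σ D.L u R K K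

theorem r_le (i : Fin 3) (m : ℕ) : (D.ω i).r m ≤ 1 - u :=
  (((D.ω i).win.ar.antitone m.zero_le).trans (D.ω i).rb.le).trans (D.ω i).bu

/-- **the end of the vertex region** -/
def vt {K : Set X} (hs : ∀ i, (D.ω i).Sig R (σ i)) (hR : R₀ ≤ R) (r : D.Rc K R σ) : Vt k X o :=
  (D.st' hs).vt g.L (D.ω 0).big hR (fun i => (Vl.u_lt (D.ω i) n).le) (fun i => D.r_le i n) le_rfl
    (P := (Sg.Pc g.E.toLev (fun i => (D.ω i).r n) v h u R K).inf (Sm (D.L.cvr g.E.cv)))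
    (fun _ _ q => q.1) (Sg.fw_le_fine (L := D.L) rfl (fun _ => le_rfl) fun i => (Vl.r_pos (D.ω i) n).le)
    r.hc r.bd

end Vd

end scalar

/-! ### the ring of a vertex -/

variable (p : ℕ) [Fact p.Prime] (J : Fin 3 → Type) [∀ i, Fintype (J i)]

/-- the ring of a vertex (this is `A2 p fun i => Uv p (J i)`) -/
abbrev OV : Type := O p (ZMod p) (Σ i, Uv p (J i))

/-- the degrees of the variables -/
def d2 (q : Σ i, Uv p (J i)) : Cs.Gm p := q.2.2

/-- its grading -/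
def G2 : Gr (Cs.Gm p) (ZMod p) (OV p J) := Tg.grO p (ZMod p) (d2 p J)

theorem G2_z (q : Σ i, Uv p (J i)) : (G2 p J).Hg (d2 p J q) (z q) := Tg.grO_z (d2 p J) q

theorem G2_mx : (G2 p J).Id mx := Tg.id_mx (G2_z p J)

variable {J}

/-- the unit `1 + x` -/
def uV (q : Cl3 J) : (Tw (G2 p J))ˣ := uz (G2_z p J) Finset.univ fun γ => ⟨q.1, q.2, γ⟩

/-- the variable `x` as an element of the twisted ring -/
def xV (q : Cl3 J) : Tw (G2 p J) := up (G2 p J) (∑ γ, z ⟨q.1, q.2, γ⟩)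

theorem uV_sub (q : Cl3 J) : (uV p q).val - 1 = xV p q := uz_sub _ _ _

theorem uV_U (q : Cl3 J) : uV p q ∈ U (G2_mx p J) := uz_mem _ _ fun _ _ => z_mem _

theorem xV_in (q : Cl3 J) : In mx (xV p q) := uV_sub p q ▸ uV_U p q

variable (J) in
/-- the meridians: `y` on `M` slots, `w` on `L` slots -/
def xM (o : Fin 3 → Bool) (i : Fin 3) : (Tw (G2 p J))ˣ := uV p ⟨i, inr (o i)⟩

variable (J) in
/-- the holonomy on `al` -/
def aV (i : Fin 3) : (Tw (G2 p J))ˣ := uV p ⟨i, inr true⟩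

variable (J) in
/-- the ideal of the meridian variables -/
def NV (o : Fin 3 → Bool) : Ideal (OV p J) := Ideal.span {f | ∃ i γ, f = z ⟨i, inr (o i), γ⟩}

theorem id_NV (o : Fin 3 → Bool) : (G2 p J).Id (NV p J o) :=
  (G2 p J).id_span_hg fun _ ⟨_, _, e⟩ => ⟨_, e ▸ G2_z p J _⟩

omit [Fact p.Prime] [∀ i, Fintype (J i)] in
theorem NV_le (o : Fin 3 → Bool) : NV p J o ≤ mx :=
  Ideal.span_le.2 fun _ ⟨_, _, e⟩ => e ▸ z_mem _

theorem xM_N (o : Fin 3 → Bool) (i : Fin 3) : xM p J o i ∈ U (id_NV p o) :=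
  uz_mem (G2_z p J) _ fun γ _ => Ideal.subset_span ⟨i, γ, rfl⟩

theorem xM_U (o : Fin 3 → Bool) (i : Fin 3) : xM p J o i ∈ U (G2_mx p J) := uV_U p _

variable {p}

namespace Vd
variable {g : Geo F (ZMod p) S X} {u R₀ : ℝ} {n : ℕ} {τ : ∀ i, Ty (J i)} {v : F3}
  {h o : Fin 3 → Bool} (D : Vd g u R₀ n τ v h o)

/-- the longitude minus one -/
def la (i : Fin 3) : Tw (G2 p J) := D.V0.la (xM p J o) i

theorem la_in (i : Fin 3) : In mx (D.la i) :=
  Ideal.mul_le_left (D.V0.la_in (G2_mx p J) (xM_U p o) i)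

/-- the holonomy on `be`: `1 + la + eps_w` on `M` slots, `1 + w` on `L` slots -/
def bV (i : Fin 3) : (Tw (G2 p J))ˣ :=
  if o i then un (G2_mx p J) Tg.mx_nil (D.la i + xV p ⟨i, inr false⟩) (In.add (D.la_in i) (xV_in p _))
  else uV p ⟨i, inr false⟩

theorem bV_U (i : Fin 3) : D.bV i ∈ U (G2_mx p J) := by
  unfold bV
  split_ifs
  exacts [un_mem _ _ _ _ _ (In.add (D.la_in i) (xV_in p _)), uV_U p _]

/-- the base -/
def G0 : Cn (G2 p J) X :=
  Ms.bs D.V0 (Ms.slv D.C) (aV p J) D.bV (G2_mx p J) Tg.mx_nil (xM_U p o)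

theorem G0_U (σ : Sx 1 X) : D.G0 σ ∈ U (G2_mx p J) :=
  Ms.bs_U _ (xM_U p o) (fun _ => uV_U p _) D.bV_U σ

/-- the coefficients of the linear classes -/
def xG (q : Cl3 J) : Tw (G2 p J) :=
  q.2.elim (fun _ => xV p q) fun c => if c then xV p q else (D.bV q.1).val - 1

theorem xG_in (q : Cl3 J) : In mx (D.xG q) := by
  obtain ⟨i, j | _ | _⟩ := q
  exacts [xV_in p _, D.bV_U i, xV_in p _]

/-- base plus linear terms -/
def G1 : Cn (G2 p J) X :=
  Lp.pl (hm := G2_mx p J) Tg.mx_nil D.G0 D.G0_U (Lp.src D.lin.cG D.xG) (Lp.src_in D.xG_in)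

/-- the sources -/
def SG : Co (Tw (G2 p J)) 2 X := Lp.src D.qa (xV p)

theorem exists_GV : ∃ G, Lp.Fam (G2_mx p J) D.vf.HG D.G1 D.SG G :=
  Lp.exists_fam Tg.mx_nil _ (fun _ => Lp.pl_U _) (Lp.src_in (xV_in p))

/-- **the family of the vertex** -/
def GV : Cn (G2 p J) X := D.exists_GV.choose

theorem fam : Lp.Fam (G2_mx p J) D.vf.HG D.G1 D.SG D.GV := D.exists_GV.choose_spec

/-- the coefficients of the located sources -/
def ε (_D : Vd g u R₀ n τ v h o) (a : Fr τ o) : Tw (G2 p J) := xV p a.1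

/-- the macroscopic ideal: jumps `y - la` of the `L` slots and cubes of meridians -/
def XV : Ideal (OV p J) :=
  (G2 p J).sp {f | ∃ i, f = Tw.o _ (Ms.ja D.V0 (xM p J o) (aV p J) i)} ⊔ NV p J o * NV p J o * NV p J o

theorem id_XV : (G2 p J).Id D.XV :=
  ((G2 p J).id_sp _).sup (((id_NV p o).mul (id_NV p o)).mul (id_NV p o))

/-- the ideal of all jumps -/
def LV : Ideal (OV p J) := D.XV ⊔ Ideal.span {f | ∃ i γ, o i = true ∧ f = z ⟨i, inr false, γ⟩}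

/-- the index of the macroscopic generators -/
abbrev βX : Type := Fin (Lz.exists_gen D.id_XV).choose × Cs.Gm p

/-- the macroscopic generators -/
def bX : D.βX → OV p J := (Lz.exists_gen D.id_XV).choose_spec.choose

theorem bX_hg (i : D.βX) : (G2 p J).Hg i.2 (D.bX i) := (Lz.exists_gen D.id_XV).choose_spec.choose_spec.1 i

theorem span_bX : Ideal.span (range D.bX) = D.XV := (Lz.exists_gen D.id_XV).choose_spec.choose_spec.2

variable (K : Set X) (ρ : D.Ix → Ch (ZMod p) 4 X)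

/-- the normalised curvature -/
abbrev f : Co (Tw (G2 p J)) 2 X := (D.Y K ρ).f D.GV D.ε

/-- the index of the generators -/
abbrev Ga : Type := (Fr τ o × Cs.Gm p) ⊕ (D.Y K ρ).Bx D.GV D.ε D.βX

/-- **the located ideals** -/
def Z : _root_.N255.Sl.Zn (OV p J) D.Ix (D.Ga K ρ) (Fin 3) :=
  (D.Y K ρ).zn D.GV D.ε (fun m => mx ^ ((m + 12) / 13)) mx 13 ((D.Y K ρ).bx D.GV D.ε D.dp D.bX)
    ((D.Y K ρ).px D.GV D.ε) fun _ => ⊥

/-- **the compact set**: off `K` everything is standard; `K` lies inside the radius `R` -/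
structure Off (K : Set X) (R : ℝ) : Prop where
  cpt : IsCompact K
  le : R₀ ≤ R
  rad : ∀ x ∈ K, g.E.r x ≤ R
  G : ∀ σ ∈ (On Kᶜ).S 1, D.GV σ = D.G0 σ
  cG : ∀ q, D.lin.cG q ∈ (On Kᶜ).van (ZMod p) (ZMod p) 1
  cx : ∀ i x, (D.ω i).cx x ∈ (On Kᶜ).van (ZMod p) (ZMod p) 1
  pv : ((g.E.toLev.Sb (Vc.core D.L.s fun _ => 1 - u)).inf (On Kᶜ)).Le D.V0.M.P
  sl : ∀ i, ∀ e ∈ ((g.E.toLev.Sb (Vc.core D.L.s fun _ => 1 - u)).inf (On Kᶜ)).S 1,
    Ms.slv D.C e = some i → e ∈ (D.V0.T i).P.S 1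
  wl : ∀ i, ((g.E.toLev.Sb (Wn.win (D.s i) u (1 - u))).inf (On Kᶜ)).Le (D.V0.T i).P

/-- the linear transfer to the class `(i, j)` -/
def tf (i : Fin 3) (j : J i) : Tw (G2 p J) := ∑ q, D.lin.lx i j q • D.xG q

/-- **the comparison of the wall families with the vertex family** -/
structure Cmp where
  io : ∀ i, OU p (J i) →ₐ[ZMod p] OV p J
  hom : ∀ i, (GU p (J i)).Hom (G2 p J) (io i)
  a : ∀ i, um (hom i) (uv p (inr true)) = aV p J i
  b : ∀ i, um (hom i) (uv p (inr false)) = D.bV i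
  h1 : ∀ i j, In (Jt.Jl p (ZMod p) {q | ∃ c, q.2.1 = inr c})
    (Tw.map (hom i) (xv p (inl j)) - xV p ⟨i, inl j⟩ - D.tf i j)
  h2 : ∀ i j, In (mx ^ ((τ i).sc j - 2)) (Tw.map (hom i) (xv p (inl j)) - xV p ⟨i, inl j⟩ - D.tf i j)
  cmp : ∀ i, CI (D.ω i).Pc (mx ^ (n - 2)) (Cs.dif D.GV (mp (hom i) (D.ω i).gU))

end Vd

end Crest.Agent.N255.Ma

end
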