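import Crest.Agent.N255.Ma.Top
import Crest.Agent.N255.Ma.Wd
import Crest.Agent.N255.Vc.Ch
import Crest.Agent.N255.Wn.B2

/-!
# Row 255 (helper49): the order of the choices.  `WallS`, `TrS`, `VtxS` give the producer
-/

set_option autoImplicit false
open Set

noncomputable section

namespace Crest.Agent.N255.Ma
open Tp Nv Pt Lv En Wn Cs _root_.N255.Core _root_.N255.Wt

/-- the boundary variable of degree `(qd i, d)` -/
def yv (p : ℕ) (J : Type) (i : Fin 3) (d : ZMod p) : Uv p J := (.inr true, (qd i, d))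

/-- the vertex identity for three walls with the standard weights -/
def VxW {p : ℕ} [Fact p.Prime] {J : Fin 3 → Type} [∀ i, Fintype (J i)]
    (w : ∀ i, Wall p (Cs.Gm p) (Cs.g0 p) (Uv p (J i))) (t : Fin 3 → Bool) (c B : ℕ) : Prop :=
  ∃ (V : Type) (_ : Fintype V) (x : VxH w t (N0 c) (La p c B) V),
    ∀ d : Fin 3 → ZMod p, ∑ i, (if t i = true then d i else 1 - d i) = 1 →
      x.cub (fun i => yv p (J i) i (d i)) ≠ 0

variable {F : Subgroup F3} {S : Type} [MulAction F3 S] {X : Type} [TopologicalSpace X]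
  [MulAction F X] [ContinuousConstSMul F X]

/-- the number of variables of small scale -/
theorem Ty.card_le {p : ℕ} [Fact p.Prime] {J : Type} [Fintype J] (τ : Ty J) {c m b : ℕ}
    (h : ∀ j, τ.dp j ≤ c) (hb : (Finset.univ.filter fun j => τ.sc j ≤ m).card ≤ b) :
    (Finset.univ.filter fun x => (τ.sg p h).sc x ≤ m).card ≤ (b + 2) * (4 * p) := by
  classical
  have e : (Finset.univ.filter fun x => (τ.sg p h).sc x ≤ m) =
      ((Finset.univ.filter fun j => τ.sc j ≤ m).disjSum Finset.univ) ×ˢ Finset.univ := by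
    ext ⟨j | c, γ⟩ <;> rw [Finset.mem_filter] <;> simp [Ty.sg]
  rw [e, Finset.card_product, Finset.card_disjSum]
  simp only [Finset.card_univ, Fintype.card_prod, ZMod.card, Fintype.card_bool]
  exact Nat.mul_le_mul_right _ (by omega)

theorem T_me (w : Wl (Fin 3) S) (e : Ed (Fin 3)) (o : Bool) : w.T (me e o) = w.T e := by
  cases o
  exacts [w.T_rev e, rfl]

namespace Wd
variable {k : Type} [Field k] {g : Geo F k S X} {u R₀ : ℝ} {n : ℕ} {J : Type} [Fintype J] {τ : Ty J}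
  {e : Ed (Fin 3)} {o : Bool} (ω : Wd g u R₀ n τ e o)

theorem u_lt (m : ℕ) : u < ω.l m := (ω.ua.trans_lt ω.al).trans_le (ω.win.ml.monotone m.zero_le)

theorem lt_u (m : ℕ) : ω.r m < 1 - u := ((ω.win.ar.antitone m.zero_le).trans_lt ω.rb).trans_le ω.bu

/-- wall chains exist beyond every radius -/
theorem exists_sig [T2Space X] {R : ℝ} (hR : R₀ ≤ R) : ∃ σ, ω.Sig R σ := by
  obtain ⟨y, h1, h2⟩ := Vc.exists_wr_sm g.E.cv_open g.E.cv_cover g.O (ω.win.lt n n)
    (box_cpt g.E.toLev e _ _ R) g.E.cv_open g.E.cv_cover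
  have h3 := Sb.ch_mono Sb.inf_le_left h1
  have h4 := Sb.ch_mono ((ω.big.mono le_rfl hR).fw hR (ω.u_lt n).le (ω.lt_u n).le)
    (h2.sb g.E.cv_open g.E.cv_cover h3).2
  rw [← T_me g.w e o] at h4
  cases o
  · exact ⟨-y, by simpa using h2, neg_mem h3, by simpa using h4⟩
  · exact ⟨y, h2, h3, h4⟩

end Wd

/-- **transport of walls** -/
def TrS : Prop :=
  ∀ (F : Subgroup F3) (S : Type) [MulAction F3 S] (X : Type) [TopologicalSpace X]
    [T2Space X] [MulAction F X] [ContinuousConstSMul F X] (g : Geo F (ZMod 3) S X) (u R₀ : ℝ) (n : ℕ)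
    (J : Type) [Fintype J] (τ : Ty J) (e e' : Ed (Fin 3)) (o o' : Bool) (ω : Wd g u R₀ n τ e o) (f : F),
    f.1 • me e o = me e' o' → ∃ ω' : Wd g u R₀ n τ e' o', ω.Rel f ω' ∧
      ∀ R σ (h : ω.Sig R σ), ∃ σ', ∃ h' : ω'.Sig R σ', h'.W = h.W

/-- **the vertex half of the producer** -/
def VtxS : Prop :=
  ∃ (c₀ : ℕ) (n₀ : ℕ → ℕ → ℕ), ∀ (F : Subgroup F3) (S : Type) [MulAction F3 S] (X : Type)
    [TopologicalSpace X] [T2Space X] [ChartedSpace (EE 4) X] [SecondCountableTopology X]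
    [MulAction F X] [ContinuousConstSMul F X] (g : Geo F (ZMod 3) S X) (u R₀ : ℝ) (n c B : ℕ)
    (J : Fin 3 → Type) [∀ i, Fintype (J i)] (τ : ∀ i, Ty (J i)) (v : F3) (h t : Fin 3 → Bool)
    (ω : ∀ i, Wd g u R₀ n (τ i) (st v h i) (t i)) (hc : ∀ i j, (τ i).dp j ≤ c),
    c₀ ≤ c → 3 ≤ c → n₀ c B ≤ n →
    (∀ i, (Finset.univ.filter fun x => ((τ i).sg 3 (hc i)).sc x ≤ 60 * c).card ≤ B) →
    (∀ i j, i ≠ j → (ω i).Dep (ω j)) →
    ∃ R, ∀ R', R ≤ R' → ∀ (σ : Fin 3 → Ch (ZMod 3) 3 X) (s : ∀ i, (ω i).Sig R' (σ i)),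
      VxW (fun i => (s i).wall (hc i)) t c B

theorem Wd.Sig.wall_congr {p : ℕ} [Fact p.Prime] {g : Geo F (ZMod p) S X} {u R₀ R R' : ℝ} {n c : ℕ}
    {J : Type} [Fintype J] {τ : Ty J} {e e' : Ed (Fin 3)} {o o' : Bool} {ω : Wd g u R₀ n τ e o}
    {ω' : Wd g u R₀ n τ e' o'} {σ σ' : Ch (ZMod p) 3 X} {h : ω.Sig R σ} {h' : ω'.Sig R' σ'}
    (q : h'.W = h.W) (hc : ∀ j, τ.dp j ≤ c) : h'.wall hc = h.wall hc := by
  unfold Wd.Sig.wall
  congr 1

/-- **the producer from its three parts** -/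
theorem prdS_of_parts (hW : WallS) (hT : TrS) (hV : VtxS) : PrdS := by
  intro F _ S _ X _ _ _ _ _ _ g
  obtain ⟨c₀, n₀, hV⟩ := hV
  obtain ⟨ka, u, R₀, N, cnt, hW⟩ := hW F S X g
  set c := max 3 (max c₀ N)
  set B := (cnt (60 * c) + 2) * (4 * 3)
  obtain ⟨J, _, τ, ⟨Y⟩, hN, hB⟩ := hW (n₀ c B + 1) (Nat.succ_pos _)
  have hc : ∀ a j, (τ a).dp j ≤ c := fun a j =>
    (hN a j).trans ((le_max_right _ _).trans (le_max_right _ _))
  have hB' := fun a => (τ a).card_le (p := 3) (hc a) (hB a (60 * c))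
  have ht := fun e : Ed (Fin 3) => (exists_rk ka e).imp fun f hf =>
    hT F S X g u R₀ _ _ (τ (cl F e)) _ e true (tk ka e) (Y.ω (cl F e)) f hf
  choose f ω h1 h2 using ht
  have hv := fun a : Vo F × (Fin 3 → Bool) =>
    hV F S X g u R₀ _ c B _ (fun i => τ (cl F (st a.1.out a.2 i))) a.1.out a.2 (tp ka a.1.out a.2)
      (fun i => ω (st a.1.out a.2 i)) (fun i => hc _) ((le_max_left _ _).trans (le_max_right _ _))
      (le_max_left _ _) (Nat.le_succ _) (fun i => hB' _)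
      fun i j q => Y.dep _ _ _ _ _ _ _ _ _ _ (h1 _) (h1 _) (st_bey _ _ q)
  choose R hR using hv
  obtain ⟨R', hR'⟩ := exists_ub R
  choose σ s using fun a => (Y.ω a).exists_sig (le_max_left R₀ R')
  let W : Std F 3 (Cs.Gm 3) (Cs.g0 3) (fun a => Uv 3 (J a)) c B :=
    ⟨fun a => (s a).wall (hc a), fun a => (τ a).sg 3 (hc a), fun _ _ => rfl, fun _ _ => rfl,
      le_max_left _ _, hB'⟩
  refine W.lab (by decide) ka (D := fun a d => yv 3 (J a) a.2 d) (fun _ _ => rfl) (m0 := 1)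
    fun v h => ?_
  choose σ' s' q using fun i => h2 (st v.out h i) _ _ (s (cl F (st v.out h i)))
  exact (congrArg (VxW · _ c B) (funext fun i => Wd.Sig.wall_congr (q i) (hc _))).mp
    (hR (v, h) _ ((hR' _).trans (le_max_right R₀ R')) σ' s')

end Crest.Agent.N255.Ma

end
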