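import Crest.Agent.N255.Ma.GeoA
import Crest.Agent.N255.Ma.Top2
import Crest.Agent.N255.Wz.Sys
import Crest.Agent.N255.Tr.All

/-!
# Row 255 (helper20): the producer and the non manifold clause from the vertex statement
-/

set_option autoImplicit false

namespace Crest.Agent.N255.Ma

/-- the producer from the vertex statement -/
theorem prdS_of_vtx (h : VtxS) : PrdS := prdS_of_parts Wz.wallS trS_holds h

/-- the non manifold clause from the vertex statement -/
theorem noMf_of_vtx (h : VtxS) : Ce.NoMf Da.D.mir.G := noMf_of geoS_holds (prdS_of_vtx h)

end Crest.Agent.N255.Ma
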