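import Crest.Agent.N255.Ma.Vx2
import Crest.Agent.N255.Jt.Vd
import Crest.Agent.N255.Ma.Prd

/-!
# Row 255 (helper36): the vertex statement and the producer hold
-/

set_option autoImplicit false

namespace Crest.Agent.N255.Ma

/-- the vertex statement -/
theorem vtxS_done : VtxS :=
  vtxS_of_hj fun _ _ _ _ _ _ _ _ _ _ _ _ _ _ _ _ _ _ _ _ D K _ _ _ _ r a => D.hJ48 K r.ρ a

/-- the producer -/
theorem prdS_done : PrdS := prdS_of_vtx vtxS_done

end Crest.Agent.N255.Ma
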