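import Crest.Agent.N255.Ma.Master
import Crest.Agent.N255.Ma.Lab
import Crest.Agent.N255.Wt.Std

/-!
# Row 255 (helper49): the target of the producer with the `M` side chosen per orbit of walls
-/

set_option autoImplicit false

noncomputable section

namespace Crest.Agent.N255.Ma
open Tp Nv Pt Lv En _root_.N255.Core

/-- the type pattern at the star `st v u` -/
def tp {F : Subgroup F3} (ka : Wo F → Bool) (v : F3) (u : Fin 3 → Bool) (i : Fin 3) : Bool :=
  tk ka (st v u i)

/-- **the target of the producer**: one wall for each orbit, vertex identities at all stars -/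
structure WlsK (F : Subgroup F3) (p : ℕ) [Fact p.Prime] (Γ : Type) [AddCommGroup Γ] (δ : Γ) where
  ka : Wo F → Bool
  s : Wo F → Type
  fin : ∀ c, Fintype (s c)
  w : ∀ c, Wall p Γ δ (s c)
  N : ℕ
  La : ℕ
  D : ∀ c, ZMod p → s c
  hD : ∀ c d, (w c).kd (D c d) = none
  pos : ∀ c x, 0 < N + (w c).F x
  le : ∀ c x, (w c).kd x = none → N + (w c).F x ≤ La
  odd : Odd La
  even : ∀ c x, Even (N + (w c).F x)
  m0 : ZMod p
  vx : ∀ v u, ∃ (V : Type) (_ : Fintype V)
    (x : VxH (fun i => w (cl F (st v u i))) (tp ka v u) N La V),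
    ∀ d : Fin 3 → ZMod p, ∑ i, (if tp ka v u i = true then d i else m0 - d i) = m0 →
      x.cub (fun i => D (cl F (st v u i)) (d i)) ≠ 0

theorem WlsK.lab {F : Subgroup F3} {p : ℕ} [Fact p.Prime] {Γ : Type} [AddCommGroup Γ] {δ : Γ}
    (hp : p ≠ 2) (W : WlsK F p Γ δ) : Lab F := by
  refine lab_iff.2 fun h => ?_
  let _ := W.fin
  exact coreKH p hp Γ δ h W.ka W.s W.w W.N W.La W.D W.hD W.pos W.le W.odd W.even W.m0 W.vx

/-- **the producer** -/
def WlsKS : Prop :=
  ∀ (F : Subgroup F3) [F.FiniteIndex] (S : Type) [MulAction F3 S] (X : Type) [TopologicalSpace X]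
    [T2Space X] [ChartedSpace (EE 4) X] [SecondCountableTopology X] [MulAction F X]
    [ContinuousConstSMul F X], Geo F (ZMod 3) S X →
      ∃ (Γ : Type) (_ : AddCommGroup Γ) (δ : Γ), Nonempty (WlsK F 3 Γ δ)

theorem prdS_of_K (h : WlsKS) : PrdS := fun F _ S _ X _ _ _ _ _ _ g => by
  obtain ⟨Γ, _, δ, ⟨W⟩⟩ := h F S X g
  exact W.lab (by decide)

theorem noMf_of_K (hG : GeoS) (h : WlsKS) : Ce.NoMf Da.D.mir.G := noMf_of hG (prdS_of_K h)

/-- the `F`-orbits of vertices -/
abbrev Vo (F : Subgroup F3) : Type := Quotient (QuotientGroup.rightRel F)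

theorem exists_out (F : Subgroup F3) (v : F3) : ∃ (c : Vo F) (f : F), f.1 * c.out = v := by
  have h := QuotientGroup.rightRel_apply.1 (Quotient.mk_out (s := QuotientGroup.rightRel F) v)
  exact ⟨Quotient.mk _ v, ⟨_, h⟩, by simp⟩

/-- properties of the walls and types at a star only depend on the orbit of the vertex -/
theorem of_out {F : Subgroup F3} (ka : Wo F → Bool) {P : (Fin 3 → Wo F) → (Fin 3 → Bool) → Prop}
    (h : ∀ (c : Vo F) u, P (fun i => cl F (st c.out u i)) (tp ka c.out u)) (v : F3)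
    (u : Fin 3 → Bool) : P (fun i => cl F (st v u i)) (tp ka v u) := by
  obtain ⟨c, f, rfl⟩ := exists_out F v
  have e1 : (fun i => cl F (st (f.1 * c.out) u i)) = fun i => cl F (st c.out u i) :=
    funext fun i => by rw [← st_smul, cl_smul]
  have e2 : tp ka (f.1 * c.out) u = tp ka c.out u :=
    funext fun i => by rw [tp, ← st_smul, tk_smul, tp]
  rw [e1, e2]; exact h c u

/-- a common bound -/
theorem exists_ub {α β : Type*} [Finite α] [Preorder β] [IsDirectedOrder β] [Nonempty β]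
    (f : α → β) : ∃ R, ∀ a, f a ≤ R :=
  let ⟨R, h⟩ := (Set.finite_range f).bddAbove; ⟨R, fun a => h ⟨a, rfl⟩⟩

open _root_.N255.Wt in
/-- walls with the standard weights -/
structure Std (F : Subgroup F3) (p : ℕ) [Fact p.Prime] (Γ : Type) [AddCommGroup Γ] (δ : Γ)
    (s : Wo F → Type) [∀ a, Fintype (s a)] (c B : ℕ) where
  w : ∀ a, Wall p Γ δ (s a)
  σ : ∀ a, Sg c (s a)
  kd : ∀ a x, (w a).kd x = (σ a).kd x
  F : ∀ a x, (w a).F x = (σ a).F x
  pos : 3 ≤ c
  cnt : ∀ a, (Finset.univ.filter fun x => (σ a).sc x ≤ 60 * c).card ≤ B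

namespace Std

open _root_.N255.Wt

variable {F : Subgroup F3} {p : ℕ} [Fact p.Prime] {Γ : Type} [AddCommGroup Γ] {δ : Γ}
  {s : Wo F → Type} [∀ a, Fintype (s a)] {c B : ℕ} (W : Std F p Γ δ s c B)

/-- the weights at a vertex -/
def ty (q : Fin 3 → Wo F) : Ty (fun i => W.w (q i)) c B :=
  ⟨fun i => W.σ (q i), fun i => W.kd (q i), fun i => W.F (q i), W.pos, fun i => W.cnt (q i)⟩

/-- the vertex identity for the walls `q` read with the pattern `t` -/
def Vx (D : ∀ a, ZMod p → s a) (m0 : ZMod p) (q : Fin 3 → Wo F) (t : Fin 3 → Bool) : Prop :=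
  ∃ (V : Type) (_ : Fintype V) (x : VxH (fun i => W.w (q i)) t (N0 c) (La p c B) V),
    ∀ d : Fin 3 → ZMod p, ∑ i, (if t i = true then d i else m0 - d i) = m0 →
      x.cub (fun i => D (q i) (d i)) ≠ 0

/-- **the end of the producer** -/
theorem lab (hp : p ≠ 2) (ka : Wo F → Bool) {D : ∀ a, ZMod p → s a}
    (hD : ∀ a d, (W.w a).kd (D a d) = none) {m0 : ZMod p}
    (h : ∀ (v : Vo F) u, W.Vx D m0 (fun i => cl F (st v.out u i)) (tp ka v.out u)) : Lab F :=
  WlsK.lab hp
    { ka := ka, s := s, fin := inferInstance, w := W.w, N := N0 c, La := La p c B, D := D, hD := hD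
      pos := fun a x => by have := W.pos; unfold N0; omega
      le := fun a x h => ((W.ty fun _ => a).F_y (i := 0) h).trans_le (N1_lt_La p c B).le
      odd := La_odd p c B
      even := fun a x => W.F a x ▸ Sg.F_even x
      m0 := m0
      vx := of_out ka h }

end Std

end Crest.Agent.N255.Ma

end
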