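import Crest.Agent.N255.Sl.PB
import Crest.Agent.N255.Cs.Id
import Crest.Agent.N255.Io.Crd

/-!
# Row 255 (helper39): extension of located ideals, step B over any ring of variables
-/

set_option autoImplicit false
open Set Function Sum

noncomputable section

namespace N255.Sl

namespace Zn

variable {A A' κ α β ι : Type*} [CommRing A] [CommRing A'] (Z : Zn A κ α ι) (φ : A →+* A')

/-- push along `φ` and adjoin macroscopic generators `e` -/
def xt (Wt : ℕ → Ideal A') (m : Ideal A') (e : β → A') : Zn A' κ (α ⊕ β) ι where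
  Wt := Wt
  m := m
  μ := Z.μ
  γ := Z.γ
  pos := Z.pos
  pa := Sum.elim Z.pa 0
  sl := Z.sl
  I k := (Z.I k).map φ
  E' k := (Z.E' k).map φ
  IK e := (Z.IK e).map φ
  ε := Sum.elim (fun a => φ (Z.ε a)) 0
  E := Sum.elim (fun a => φ (Z.E a)) e

variable {Z φ} {Wt : ℕ → Ideal A'} {m : Ideal A'} {e : β → A'}

theorem map_iSup₂_le {γ δ : Type*} {P : γ → Prop} {Q : δ → Prop} {f : γ → Ideal A} {g : δ → Ideal A'}
    (j : γ → δ) (h : ∀ a, P a → Q (j a)) (h' : ∀ a, (f a).map φ ≤ g (j a)) :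
    (⨆ (a) (_ : P a), f a).map φ ≤ ⨆ (a) (_ : Q a), g a := by
  simp only [Ideal.map_iSup]
  exact iSup₂_le fun a ha => (h' a).trans (le_iSup₂_of_le (f := fun a (_ : Q a) => g a) _ (h a ha) le_rfl)

theorem map_one_le (φ : A →+* A') (x : A) : (Ideal.span {x}).map φ ≤ Ideal.span {φ x} := by
  rw [Ideal.map_span, image_singleton]

theorem Ok.xt (h : Z.Ok) (fl : Fl Wt) (nil : IsNilpotent m) (mle : m ≤ Wt Z.μ)
    (hm : Z.m.map φ ≤ m) (e : β → A') : (Z.xt φ Wt m e).Ok := by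
  refine ⟨fl, nil, mle, h.gap, fun k => (Ideal.map_mono (h.hI k)).trans ?_,
    fun k => (Ideal.map_mono (h.hE1 k)).trans ?_, fun k hk => (Ideal.map_mono (h.hE2 k hk)).trans ?_⟩
  · rw [Ideal.map_sup]
    exact sup_le_sup_left (map_iSup₂_le (g := fun a => Ideal.span {(Z.xt φ Wt m e).ε a})
      (Q := fun a => Z.pos k ≤ (Z.xt φ Wt m e).pa a + Z.γ) inl (fun _ h => h)
      fun _ => map_one_le φ _) _
  · rw [Ideal.map_sup, Ideal.map_mul]
    exact sup_le_sup (map_iSup₂_le (g := fun a => Ideal.span {(Z.xt φ Wt m e).E a})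
      (Q := fun a => (Z.xt φ Wt m e).pa a ≤ Z.pos k + Z.γ) inl (fun _ h => h)
      fun _ => map_one_le φ _) (Ideal.mul_mono hm (map_iSup₂_le (g := fun k => (Z.I k).map φ)
        (Q := fun k' => Z.pos k' ≤ Z.pos k + Z.γ) id (fun _ h => h) fun _ => le_rfl))
  · rw [Ideal.map_sup, Ideal.map_mul]
    exact sup_le_sup_left (Ideal.mul_mono hm (map_iSup₂_le (g := fun k => (Z.I k).map φ)
      (Q := fun k' => Z.pos k ≤ Z.pos k' + Z.γ ∧ (Z.sl k' = Z.sl k ∨ Z.pos k' ≤ Z.γ)) id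
      (fun _ h => h) fun _ => le_rfl)) _

theorem map_Cb_xt (hW : ∀ n, (Z.Wt n).map φ ≤ Wt n) {g : α ⊕ β → ℕ} :
    (Cb Z.Wt (fun a => g (inl a)) Z.E).map φ ≤ Cb Wt g (Z.xt φ Wt m e).E := by
  rw [Cb, Ideal.map_iSup]
  refine iSup_le fun a => le_trans ?_ (le_Cb (inl a))
  rw [Ideal.map_mul]
  exact Ideal.mul_mono (hW _) (map_one_le φ _)

theorem map_Eps_xt : Z.Eps.map φ ≤ (Z.xt φ Wt m e).Eps :=
  Ideal.map_le_iff_le_comap.2 (Ideal.span_le.2 (by
    rintro _ ⟨a, rfl⟩; exact Ideal.subset_span ⟨inl a, rfl⟩))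

theorem map_Rs_xt (hW : ∀ n, (Z.Wt n).map φ ≤ Wt n) : Z.Rs.map φ ≤ (Z.xt φ Wt m e).Rs := by
  have h1 : Z.Loc.map φ ≤ (Z.xt φ Wt m e).Loc :=
    map_Cb_xt hW (g := fun a => (Z.xt φ Wt m e).pa a - (2 * Z.γ + Z.γ))
  rw [Rs, Ideal.map_sup, Ideal.map_sup, Ideal.map_mul, Ideal.map_mul, Ideal.map_iSup]
  refine sup_le (sup_le (iSup_le fun a => le_trans ?_ (eps_At (inl a)))
    ((Ideal.mul_mono h1 h1).trans Loc_sq)) ((Ideal.mul_mono map_Eps_xt map_Eps_xt).trans Eps_sq)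
  rw [Ideal.map_mul]
  exact Ideal.mul_mono (map_one_le φ _)
    (map_Cb_xt hW (g := fun b => (Z.xt φ Wt m e).pa b - Z.pa a + 1))

theorem map_Pu_xt (fl : Fl Wt) : Z.Pu.map φ ≤ (Z.xt φ Wt m e).Loc := by
  simp only [Pu, Ideal.map_iSup]
  exact iSup₂_le fun a ha => (map_one_le φ _).trans
    (fl.span_le_Cb (x := (Z.xt φ Wt m e).E) (a := inl a) (by simp [xt, ha.2]))

theorem new_xt (fl : Fl Wt) (b : β) : e b ∈ (Z.xt φ Wt m e).Loc :=
  fl.span_le_Cb (x := (Z.xt φ Wt m e).E) (a := inr b) (by simp [xt]) (Ideal.mem_span_singleton_self _)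

theorem sum_xt [Fintype α] [Fintype β] :
    ∑ a, (Z.xt φ Wt m e).ε a * (Z.xt φ Wt m e).E a = φ (∑ a, Z.ε a * Z.E a) := by
  simp [xt]

end Zn

open N255.Dr N255.Dr.O Crest.Agent.N255.Tg N255.Core Crest.Agent.N255.Io

variable {p : ℕ} [Fact p.Prime] {Γ : Type} [AddCommGroup Γ] {δ : Γ} {s : Fin 3 → Type}
  [∀ i, Fintype (s i)] {w : ∀ i, Wall p Γ δ (s i)} {N : ℕ} {κ α : Type*} [Fintype α]

/-- step B over a ring of variables -/
theorem stepBG {τ : Type} [Fintype τ] (f : ∀ i, Wf (w i) N) (t : Fin 3 → Bool)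
    {Z : Zn (O p (ZMod p) τ) κ α (Fin 3)} (hZ : Z.Ok) (hm : Z.m = mx) {o : Fin 3 → τ → ℕ}
    (pos : ∀ i x, 0 < N + (w i).F x) {io : ∀ i, O p (ZMod p) (s i) →ₐ[ZMod p] O p (ZMod p) τ}
    (hF : ∀ i x, io i (z x) ∈ Ge p (ZMod p) (o i) (N + (w i).F x : ℕ))
    {Y : Fin 3 → Ideal (O p (ZMod p) τ)} (hy : ∀ i x, (w i).kd x = none → io i (z x) ∈ Y i)
    {N1 : ℕ} (hN : ∀ i, (f i).I ≤ Ge p (ZMod p) (fun x => N + (w i).F x) N1)
    (hN' : ∀ i y y', (w i).kd y = none → (w i).kd y' = none → (w i).F y < (w i).F y' + N1)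
    {H : Ideal (O p (ZMod p) τ)} {H1 : Fin 3 → Ideal (O p (ZMod p) τ)}
    (hI : ∀ i, Z.IK i ≤ (f i).I.map (io i) ⊔ H1 i)
    (hH : ∀ i, ((f i).I.map (io i) ⊔ H1 i) * H1 i ≤ H)
    (hK : ∀ i, (f i).I.map (io i) * (f i).KU.map (io i) ≤ H) {G : O p (ZMod p) τ}
    (hP : ∑ i, (if t i = true then io i (w i).W else -io i (w i).W) + G - ∑ b, Z.ε b * Z.E b ∈
      Z.Qd ⊔ Z.Eps * Z.Eps ⊔ H) :
    ∃ jo : ∀ i, O p (ZMod p) (s i) →ₐ[ZMod p] O p (ZMod p) τ,
      (∀ i x, jo i (z x) - io i (z x) ∈ Ge p (ZMod p) (o i) ((N + (w i).F x : ℕ) + 1)) ∧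
      (∀ i x, (w i).kd x = none → jo i (z x) - io i (z x) ∈ Y i * mx) ∧
      ∑ i, (if t i = true then jo i (w i).W else -jo i (w i).W) + G - ∑ b, Z.ε b * Z.E b ∈
        Z.Rs ⊔ H := by
  have hx : ∀ i x, io i (z x) ∈ mx := fun i x => Ge_le_mx (by have := pos i x; omega) (hF i x)
  obtain ⟨jo, h, k1, -, k3, k4, k5⟩ := stepB f t hZ (fun x h => pow_p (hm ▸ h))
    (fun i x => hm ▸ hx i x) (fun i => flt_Ge (o i)) hF hI hH hK hP
  have ky : ∀ i y, (w i).kd y = none → ∀ J : Ideal (O p (ZMod p) τ),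
      (∀ y', (w i).kd y' = none → io i (z y') * h i y y' ∈ J) → jo i (z y) - io i (z y) ∈ J :=
    fun i y hy J hJ => by
    rw [k4 i y hy, ys, add_sub_cancel_left]
    refine sum_mem fun y' _ => ?_
    split_ifs with h'
    exacts [hJ y' h', zero_mem _]
  refine ⟨jo, fun i x => ?_, fun i y hy' => ky i y hy' _ fun y' h' => Ideal.mul_mem_mul (hy i y' h')
    ((Ideal.map_le_iff_le_comap.2 fun g hg => map_mx (io i) (hx i) ((f i).hI hg) : _ ≤ mx)
      (k3 i y y')), k5⟩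
  by_cases hx : (w i).kd x = none
  swap
  · exact (k1 i x hx).2
  refine ky i x hx _ fun y' hy' => (flt_Ge _).mul_le (m := N1) le_rfl
    (Ideal.map_le_iff_le_comap.2 fun g hg => map_Ge (flt_Ge _) (hF i) (hN i hg))
    (by have := hN' i x y' hx hy'; omega) (Ideal.mul_mem_mul (hF i y') (k3 i x y'))

omit [Fact p.Prime] in
/-- the first derivative of an element of `(T) m + m ^ 3` -/
theorem pd_Zs_mul {K σ : Type} [CommRing K] [Fact ((p : K) = 0)] {T : Set σ} {u : σ} (hu : u ∉ T)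
    {x : O p K σ} (hx : x ∈ Zs p K T * mx ⊔ mx ^ 3) : pd u x ∈ mx ^ 2 ⊔ Zs p K T := by
  have h0 : ∀ b ∈ Zs p K T, pd u b ∈ Zs p K T := fun b hb => by
    induction hb using Submodule.span_induction with
    | mem x hx =>
      obtain ⟨a, ha, rfl⟩ := hx
      rw [pd_z_ne (fun e : u = a => hu (e ▸ ha))]
      exact zero_mem _
    | zero => simp
    | add x y _ _ h h' => rw [map_add]; exact add_mem h h'
    | smul c x hx h =>
      rw [smul_eq_mul, Derivation.leibniz, smul_eq_mul, smul_eq_mul]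
      exact add_mem (Ideal.mul_mem_left _ _ h) (Ideal.mul_mem_right _ _ hx)
  obtain ⟨a, ha, b, hb, rfl⟩ := Submodule.mem_sup.1 hx
  rw [map_add, add_comm]
  refine Submodule.add_mem_sup (pd_pow u 2 hb) (Submodule.mul_induction_on ha (fun a ha b _ => ?_)
    fun a b ha hb => by rw [map_add]; exact add_mem ha hb)
  rw [Derivation.leibniz, smul_eq_mul, smul_eq_mul]
  exact add_mem (Ideal.mul_mem_right _ _ ha) (Ideal.mul_mem_left _ _ (h0 a ha))

end N255.Sl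

end
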