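import Crest.Agent.N255.Sl.PC
import Crest.Agent.N255.Wt.Pt
import Crest.Agent.N255.Io.Mon
import Crest.Agent.N255.Ma.Vz

/-!
# Row 255 (helper39): the algebra at a vertex, from the located identity without `m` to `VxH`
-/

set_option autoImplicit false
open Set Function Sum

noncomputable section

namespace Crest.Agent.N255.Ma

open _root_.N255.Dr _root_.N255.Dr.O Tg _root_.N255.Wt
open _root_.N255.Core (Wall Ok Xi Hi lin vw yi VxH)
open _root_.N255.Sl (Zn Wf W0w)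

variable {p : ℕ} [Fact p.Prime] {Γ : Type} [AddCommGroup Γ] {δ : Γ} {s : Fin 3 → Type}
  [∀ i, Fintype (s i)]

/-- the ring of all wall variables -/
abbrev A2 (p : ℕ) (s : Fin 3 → Type) : Type := O p (ZMod p) (Σ i, s i)

/-- the ring with the variables `m` -/
abbrev A3 (w : ∀ i, Wall p Γ δ (s i)) (t : Fin 3 → Bool) : Type := O p (ZMod p) (V w t ⊕ B w t)

/-- the variables `y` and `m` -/
abbrev Ny (w : ∀ i, Wall p Γ δ (s i)) (t : Fin 3 → Bool) : Type :=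
  {v : V w t // (w v.1.1.1).kd v.1.1.2 = none}

variable {w : ∀ i, Wall p Γ δ (s i)} {t : Fin 3 → Bool}

/-- the ideal of all `y` and `m` (this is `Gv.N`) -/
def NN (x0 : V w t) : Ideal (O p (ZMod p) (V w t)) :=
  Ideal.span {f | ∃ q, Ok w t q ∧ (w q.1.1).kd q.1.2 = none ∧ f = z ((vsV x0).em q)}

/-- the Gaussian generators `w - m` -/
def xm (x0 : V w t) (wv : Xm w t → V w t) (q : Xm w t) : O p (ZMod p) (V w t) :=
  z (wv q) - z ((vsV x0).em q.1.1)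

/-- the macroscopic ideal over the ring with `m` -/
def XX (x0 : V w t) (wv : Xm w t → V w t) {κ α : Type} (Z : Zn (A2 p s) κ α (Fin 3)) :
    Ideal (A3 w t) :=
  Z.Pu.map (kap w t) ⊔ (sp (xm x0 wv) ⊔ NN x0 * NN x0).map (rn inl : _ →ₐ[ZMod p] A3 w t)

/-- **The algebraic data at a vertex.**  Everything before `cf` lives over `A2` (no `m`). -/
structure VA {c n : ℕ} (T : Ty w c n) (x0 : V w t) (κ α : Type) [Fintype α] where
  f : ∀ i, Wf (w i) (N0 c)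
  W0 : ∀ i, W0w (w i)
  hN : ∀ i, (f i).I ≤ Ge p (ZMod p) (fun x => N0 c + (w i).F x) (N1 c)
  hK : ∀ i, (f i).KU ≤ mx ^ 2 ⊓ Ge p (ZMod p) (fun x => N0 c + (w i).F x) (3 * La p c n + 1)
  io : ∀ i, O p (ZMod p) (s i) →ₐ[ZMod p] A2 p s
  hy : ∀ i x, (w i).kd x = none → io i (z x) = z ⟨i, x⟩
  adm : ∀ i x, (w i).kd x ≠ none → Io.Adm T id i x (io i (z x) - z ⟨i, x⟩)
  Z : Zn (A2 p s) κ α (Fin 3)
  ok : Z.Ok
  hm : Z.m = mx
  hγ : 2 * Z.γ ≤ 3 * c
  be : B w t → α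
  be_inj : Injective be
  eps : ∀ b, Z.ε (be b) = z b.1
  eps0 : ∀ a, a ∉ range be → Z.ε a = 0
  pa : ∀ b, (T.σ b.1.1).sc b.1.2 ≤ Z.pa (be b)
  hE : ∀ a, Z.E a ∈ mx
  DE : ∀ (b : B w t) a, pd b.1 (Z.E a) ∈ mx
  hI : ∀ i, Z.IK i ≤ (f i).I.map (io i) ⊔
    mx ^ 2 ⊓ Ge p (ZMod p) (m2 w t c (La p c n)) (3 * La p c n + 1)
  A : A2 p s
  H : Ideal (A2 p s)
  id : ∑ i, (if t i = true then io i (w i).W else -io i (w i).W) + A - ∑ a, Z.ε a * Z.E a ∈
    Z.Qd ⊔ Z.Eps * Z.Eps ⊔ H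
  cf : ∀ i, s i → ZMod p
  hc : ∀ i x, t i = false → (w i).kd x = none → cf i x ≠ 0
  Ps : O p (ZMod p) (V w t)
  Ps3 : Ps ∈ NN x0 * NN x0 * NN x0
  wv : Xm w t → V w t
  hH : H.map (kap w t) ≤ XX x0 wv Z * XX x0 wv Z ⊔ (vsV x0).HS c (La p c n)
  hA : rn inl (Ga w t cf (fun q => z ((vsV x0).em q)) + Ps) - kap w t A ∈
    XX x0 wv Z * XX x0 wv Z ⊔ (vsV x0).HS c (La p c n)
  row : ∀ a, a ∉ range be → pz p _ _ (kap w t (Z.E a)) ∈
    (sp fun q : Xm w t => pd ((vsV x0).em q.1.1) (Ga w t cf (fun q => z ((vsV x0).em q)) + Ps)) ⊔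
      (vsV x0).K c (La p c n) ⊔ mx * sp (xm x0 wv) ∨ La p c n + 3 * Z.γ ≤ Z.pa a

theorem NN_eq (x0 : V w t) : NN x0 = sp fun v : Ny w t => z v.1 := by
  refine congrArg Ideal.span (Set.ext fun f => ⟨?_, ?_⟩)
  · rintro ⟨q, h1, h2, rfl⟩
    exact ⟨⟨⟨q, h1⟩, h2⟩, by rw [vsV_em x0 h1]⟩
  · rintro ⟨⟨⟨q, h1⟩, h2⟩, rfl⟩
    exact ⟨q, h1, h2, by rw [vsV_em x0 h1]⟩

theorem NN_mx (x0 : V w t) : NN x0 ≤ mx := NN_eq x0 ▸ sp_le.2 fun _ => z_mem _

theorem NN_Ge (x0 : V w t) (c La : ℕ) : NN x0 ≤ Ge p (ZMod p) ((vsV x0).mw c La) La :=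
  NN_eq x0 ▸ sp_le.2 fun v => by
    have := z_mem_Ge (p := p) (K := ZMod p) ((vsV x0).mw c La) v.1
    rwa [show (vsV x0).mw c La v.1 = La from if_pos v.2] at this

namespace VA

variable {c n : ℕ} {T : Ty w c n} {x0 : V w t} {κ α : Type} [Fintype α] (v : VA T x0 κ α)

theorem ho (i : Fin 3) (a : Σ i, s i) : min (N0 c + (w a.1).F a.2) (N1 c) ≤ o2 w t c i a := by
  have := min_le_o2 (w := w) (t := t) (c := c) i a
  have := le_F2 (w := w) (t := t) (c := c) a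
  omega

theorem near (i : Fin 3) (x : s i) :
    Hi (o2 w t c i) (N0 c + (w i).F x) (v.io i (z x) - z ⟨i, x⟩) :=
  Io.near_adm (T := T) (inc := _root_.id) (o := o2 w t c) v.hy v.adm le_o2 ho i x

theorem hF (i : Fin 3) (x : s i) :
    v.io i (z x) ∈ Ge p (ZMod p) (o2 w t c i) (N0 c + (w i).F x : ℕ) := by
  simpa using add_mem ((flt_Ge _).anti (by omega) (hi_Ge.1 (v.near i x))) ((flt_Ge _).anti
    (show ((N0 c + (w i).F x : ℕ) : ℤ) ≤ o2 w t c i ⟨i, x⟩ by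
      have := le_o2_own (w := w) (t := t) (c := c) i x; omega)
    (z_mem_Ge (p := p) (K := ZMod p) (o2 w t c i) ⟨i, x⟩))

/-- the zones with doubled positions -/
abbrev Z2 : Zn (A2 p s) κ α (Fin 3) := v.Z.dbl (Wm p (ZMod p) _ (N0 c)) (N0 c)

theorem ok2 : v.Z2.Ok :=
  v.ok.dbl (fl_Wm _) (v.hm ▸ mx_le_Wm _) (by have := v.hγ; have := T.pos; unfold N0; omega)

/-- step B without `m` -/
theorem stepB : ∃ jo : ∀ i, O p (ZMod p) (s i) →ₐ[ZMod p] A2 p s,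
    (∀ i x, jo i (z x) - z ⟨i, x⟩ ∈ Ge p (ZMod p) (o2 w t c i) ((N0 c + (w i).F x : ℕ) + 1)) ∧
    (∀ i x, (w i).kd x = none → jo i (z x) - z ⟨i, x⟩ ∈
      Ideal.span {g | ∃ y, (w i).kd y = none ∧ g = z ⟨i, y⟩} * mx) ∧
    ∑ i, (if t i = true then jo i (w i).W else -jo i (w i).W) + v.A - ∑ a, v.Z.ε a * v.Z.E a ∈
      v.Z2.Rs ⊔ (v.H ⊔ H2 w t c (La p c n)) := by
  have hx : ∀ i x, v.io i (z x) ∈ mx := Io.io_z_mx (T := T) (inc := _root_.id) v.hy v.adm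
  have h1 : ∀ i, (v.f i).I.map (v.io i) ≤ mx := fun i =>
    Ideal.map_le_iff_le_comap.2 fun g hg => map_mx (v.io i) (hx i) ((v.f i).hI hg)
  have h2 : mx * (mx ^ 2 ⊓ Ge p (ZMod p) (m2 w t c (La p c n)) (3 * La p c n + 1)) ≤
      v.H ⊔ H2 w t c (La p c n) := le_sup_of_le_right (le_inf
    ((Ideal.mul_mono_right inf_le_left).trans (pow_succ' (mx : Ideal (A2 p s)) 2).ge)
    (Ideal.mul_le_right.trans inf_le_right))
  obtain ⟨jo, k1, k2, k3⟩ := _root_.N255.Sl.stepBG v.f t v.ok2 v.hm T.hpos v.hF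
    (Y := fun i => Ideal.span {g | ∃ y, (w i).kd y = none ∧ g = z ⟨i, y⟩})
    (fun i x hx => Ideal.subset_span ⟨x, hx, v.hy i x hx⟩) v.hN
    (fun i y y' h h' => by have := T.F_y h; have := T.F_y h'; have := T.lt1; omega)
    (H := v.H ⊔ H2 w t c (La p c n)) v.hI
    (fun i => (Ideal.mul_mono_left (sup_le (h1 i) (inf_le_left.trans
      (Ideal.pow_le_self two_ne_zero)))).trans h2)
    (fun i => (Ideal.mul_mono (h1 i) (Ideal.map_le_iff_le_comap.2 fun g hg =>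
      Ideal.mem_comap.2 (Ideal.mem_inf.2 ⟨map_mx_pow _ (hx i) (v.hK i hg).1,
        Ge_mono (T.o2_le_m2 i) le_rfl (map_Ge (flt_Ge _) (v.hF i) (v.hK i hg).2)⟩))).trans h2)
    (G := v.A) (SetLike.le_def.1 (sup_le_sup_left le_sup_left _) v.id)
  exact ⟨jo, fun i x => by simpa using add_mem (k1 i x) (hi_Ge.1 (v.near i x)),
    fun i x hx => v.hy i x hx ▸ k2 i x hx, k3⟩

/-- the new generators -/
def ng : Xm w t ⊕ Ny w t × Ny w t → O p (ZMod p) (V w t) :=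
  Sum.elim (xm x0 v.wv) fun y => z y.1.1 * z y.2.1

theorem ng_mx (b : Xm w t ⊕ Ny w t × Ny w t) : v.ng b ∈ mx := by
  rcases b with q | y
  exacts [sub_mem (z_mem _) (z_mem _), Ideal.mul_mem_left _ _ (z_mem _)]

/-- the zones over the ring with `m` -/
def Z3 : Zn (A3 w t) κ (α ⊕ Xm w t ⊕ Ny w t × Ny w t) (Fin 3) :=
  v.Z2.xt (kap w t : A2 p s →+* A3 w t) (Wm p (ZMod p) _ (N0 c)) mx fun b => rn inl (v.ng b)

theorem XX_le : XX x0 v.wv v.Z ≤ v.Z3.Loc := by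
  refine sup_le (le_trans (le_of_eq ?_) (Zn.map_Pu_xt (fl_Wm _))) (Ideal.map_le_iff_le_comap.2
    (sup_le (sp_le.2 fun q => Zn.new_xt (fl_Wm _) (inl q)) ?_))
  · simp only [Zn.Pu, Zn.dbl, mul_eq_zero, two_ne_zero, false_or]; rfl
  · rw [NN_eq, sp, Ideal.span_mul_span', Ideal.span_le]
    rintro _ ⟨_, ⟨a, rfl⟩, _, ⟨b, rfl⟩, rfl⟩
    exact Zn.new_xt (fl_Wm _) (inr (a, b))

theorem Ps_cube : v.Ps ∈ (mx : Ideal (O p (ZMod p) (V w t))) ^ 3 := by
  rw [pow_succ, sq]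
  exact Ideal.mul_mono (Ideal.mul_mono (NN_mx x0) (NN_mx x0)) (NN_mx x0) v.Ps3

theorem Phi_eq (jo : ∀ i, O p (ZMod p) (s i) →ₐ[ZMod p] A2 p s) :
    Ga w t v.cf (fun q => z (inl ((vsV x0).em q))) + GA w t (fun i => (kap w t).comp (jo i)) v.Ps =
      rn inl (Ga w t v.cf (fun q => z ((vsV x0).em q)) + v.Ps) +
        kap w t (∑ i, if t i = true then jo i (w i).W else -jo i (w i).W) := by
  simp only [Ga, GA, map_add, map_sum, apply_ite (kap w t), apply_ite (rn inl), map_neg, map_smul,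
    map_mul, map_zero, rn_z, AlgHom.comp_apply]
  ring

/-- **the algebra at a vertex** -/
theorem vxH : ∃ u : VxH w t (N0 c) (La p c n) (V w t), ∀ al : ∀ i, s i,
    (∀ i, (w i).kd (al i) = none) → u.cub al = aug (pd ((vsV x0).em (⟨0, al 0⟩, !t 0))
      (pd ((vsV x0).em (⟨1, al 1⟩, !t 1)) (pd ((vsV x0).em (⟨2, al 2⟩, !t 2)) v.Ps))) := by
  obtain ⟨jo, k1, k2, k3⟩ := v.stepB
  have hy : ∀ i x, (w i).kd x = none → (kap w t).comp (jo i) (z x) -
      z (inl ((vsV x0).em (⟨i, x⟩, false))) ∈ Ideal.span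
        {f | ∃ y, (w i).kd y = none ∧ f = z (inl ((vsV x0).em (⟨i, y⟩, false)))} * mx := fun i x hx => by
    have := Ideal.mem_map_of_mem (kap w t) (k2 i x hx)
    rw [map_sub, kap_z_near x0 (by simp [hx]), Ideal.map_mul] at this
    refine Ideal.mul_mono (Ideal.map_le_iff_le_comap.2 (Ideal.span_le.2 ?_))
      (Ideal.map_le_iff_le_comap.2 fun f => rn_mem _) this
    rintro _ ⟨y, hy, rfl⟩
    exact Ideal.subset_span ⟨y, hy, kap_z_near x0 (by simp [hy])⟩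
  obtain ⟨g1, g2, g3, g4⟩ := _root_.N255.Sl.hs_weak (em := (vsV x0).em) v.W0
    (jo := fun i => (kap w t).comp (jo i)) (fun i x => rn_mem _ (by
      simpa using add_mem (Ge_le_mx (by omega) (k1 i x)) (z_mem ⟨i, x⟩))) hy
    (fun i x q => pd_m_kap x0 q _) v.Ps_cube
  have hL := N1_lt_La p c n
  refine PVxT.vxH (T := T) (x0 := x0) (κ := κ) (α := α ⊕ Xm w t ⊕ Ny w t × Ny w t) (ι := Fin 3)
    { io := fun i => (kap w t).comp (jo i)
      near := fun i x hx => ?_, far := fun i x hx => ?_, hy := hy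
      cc := v.cf, hc := v.hc, Ps := v.Ps
      Ps2 := Ideal.pow_le_pow_right (by omega) v.Ps_cube
      hPs := (flt_Ge _).mul_le ((flt_Ge _).mul_le (NN_Ge x0 c _) (NN_Ge x0 c _) le_rfl)
        (NN_Ge x0 c _) (by omega) v.Ps3
      Z := v.Z3
      ok := v.ok2.xt (fl_Wm _) mx_nil (mx_le_Wm _)
        (v.hm.symm ▸ Ideal.map_le_iff_le_comap.2 fun f => rn_mem _) _
      hW := fun _ => le_rfl, hμ := rfl, hγ := v.hγ
      be := fun b => inl (v.be b)
      be_inj := inl_injective.comp v.be_inj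
      eps := fun b => (congrArg (kap w t) (v.eps b)).trans (kap_z_b b)
      eps0 := ?_
      hpa := fun b => Nat.mul_le_mul_left 2 (v.pa b)
      hE := ?_, DE := ?_, G2 := g1, Gm := g2, iso := g3
      hD := fun i => g4 _ (N0 c) _ ((vsV x0).le_om i) (le1 c) fun j y h => ?_
      aX := fun q => inr (inl q)
      pX := fun _ => Nat.zero_le _
      J1 := ?_, dir := ?_, id := ?_ }
  · have := kap_o x0 (k1 i x)
    rwa [map_sub, kap_z_near x0 hx, ← hi_Ge] at this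
  · refine hi_Ge.2 (kap_o x0 ?_)
    have := z_mem_Ge (p := p) (K := ZMod p) (o2 w t c i) ⟨i, x⟩
    rw [o2_far hx] at this
    simpa using add_mem (k1 i x) this
  · rintro (a | a) ha
    · exact (congrArg (kap w t) (v.eps0 a (by rintro ⟨b, rfl⟩; exact ha ⟨b, rfl⟩))).trans (map_zero _)
    · rfl
  · rintro (a | a)
    exacts [map_mx _ pz_mx (rn_mem _ (v.hE a)), map_mx _ pz_mx (rn_mem _ (v.ng_mx a))]
  · rintro b (a | a)
    · exact map_mx _ pz_mx ((pd_b_kap b _).symm ▸ rn_mem _ (v.DE b a))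
    · rw [show pd (inr b) (v.Z3.E (inr a)) = 0 from pd_rn_not (by simp) _, map_zero]
      exact zero_mem _
  · have h1 := min_le_oQ (w := w) (c := c) i (⟨j, y⟩, false)
    rw [FQ_u, T.F_y h, min_self] at h1
    rwa [(vsV x0).om_em' i (ok_y h)]
  · rintro (a | q | y) - h - q'
    · rw [lin, pd_pz, show pd _ (v.Z3.E (inl a)) = 0 from pd_m_kap x0 q' _, map_zero, map_zero]
    · exact absurd ⟨q, rfl⟩ h
    · rw [show pz p _ _ (v.Z3.E (inr (inr y))) = _ from map_rn_inl pz_inl _]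
      exact mem_mx.1 (pd_sq (sq (mx : Ideal (O p (ZMod p) (V w t))) ▸
        Ideal.mul_mem_mul (z_mem _) (z_mem _)) _)
  · rintro (a | q | y) h h'
    · refine (v.row a (by rintro ⟨b, rfl⟩; exact h ⟨b, rfl⟩)).imp (fun h => SetLike.le_def.1
        (sup_le_sup (sup_le_sup_right (sp_le.2 fun q => ?_) _) ?_) h) fun h => ?_
      · convert mem_sp _ q.1 using 1
        rw [v.Phi_eq, map_add (pd (inl _)), pd_m_kap, add_zero, ← pd_pz, map_rn_inl pz_inl]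
      · rw [sp, _root_.N255.Sl.span_range_eq, Ideal.mul_iSup]
        refine iSup_le fun q => le_trans (Ideal.mul_mono ?_ (le_of_eq ?_))
          (_root_.N255.Sl.le_Cb (inr (inl q)))
        · exact mx_le_Ge' fun _ => by have := T.N0_pos; simp [Z3, Zn.xt]; omega
        · exact congrArg (fun x => Ideal.span {x}) (map_rn_inl pz_inl _).symm
      · change 2 * La p c n + 3 * (2 * v.Z.γ) ≤ 2 * v.Z.pa a
        omega
    · exact absurd ⟨q, rfl⟩ h'
    · refine Or.inl (Ideal.mem_sup_left (Ideal.mem_sup_right ?_))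
      rw [show pz p _ _ (v.Z3.E (inr (inr y))) = _ from map_rn_inl pz_inl _]
      exact mx_sq_le_KK (NN_mx x0) (NN_Ge x0 c _) (NN_eq x0 ▸
        Ideal.mul_mem_mul (mem_sp _ y.1) (mem_sp _ y.2))
  · have h1 : XX x0 v.wv v.Z * XX x0 v.wv v.Z ⊔ (vsV x0).HS c (La p c n) ≤
        v.Z3.Rs ⊔ (vsV x0).HS c (La p c n) :=
      sup_le_sup_right ((Ideal.mul_mono v.XX_le v.XX_le).trans Zn.Loc_sq) _
    have h2 := Ideal.mem_map_of_mem (kap w t) k3
    rw [Ideal.map_sup, Ideal.map_sup] at h2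
    have h3 := (sup_le (le_sup_of_le_left (Zn.map_Rs_xt fun k => Ideal.map_le_iff_le_comap.2
      fun f => rn_Wm)) (sup_le (v.hH.trans h1) (le_sup_of_le_right
        (Ideal.map_le_iff_le_comap.2 fun f => kap_H x0))) : _ ≤ v.Z3.Rs ⊔ _) h2
    rw [v.Phi_eq, show ∑ a, v.Z3.ε a * v.Z3.E a = kap w t (∑ a, v.Z.ε a * v.Z.E a) from Zn.sum_xt]
    convert add_mem (h1 v.hA) h3 using 1
    rw [map_sub, map_add (kap w t)]
    ring

end VA

end Crest.Agent.N255.Ma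

end
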