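import Crest.Agent.N255.Ma.Va
import Crest.Agent.N255.Cs.IdM

/-!
# Row 255 (helper39): the vertex algebra with the boundary action of `Vt`
-/

set_option autoImplicit false
open Set Function Sum

noncomputable section

namespace Crest.Agent.N255.Ma

open _root_.N255.Dr _root_.N255.Dr.O Tg _root_.N255.Wt Cs Cs.Tw
open _root_.N255.Core (Wall Ok Xi Hi lin vw yi VxH)
open _root_.N255.Sl (Zn Wf W0w)

variable {p : ℕ} [Fact p.Prime] {s : Fin 3 → Type} [∀ i, Fintype (s i)]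
  {w : ∀ i, Wall p (Gm p) (g0 p) (s i)} {t : Fin 3 → Bool} {X : Type} [TopologicalSpace X]

/-- the graded standard variables -/
def gvV (x0 : V w t) : Gv w t (V w t) where
  em := (vsV x0).em
  inj := (vsV x0).inj
  G := grO p (ZMod p) fun v => if v.1.2 = true then g0 p - (w _).deg v.1.1.2 else (w _).deg v.1.1.2
  d v := if v.1.2 = true then g0 p - (w _).deg v.1.1.2 else (w _).deg v.1.1.2
  hO := grO_z _
  dy i x h := by rw [vsV_em x0 (Cs.ok_y h)]; rfl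
  dm i x h h' := by rw [vsV_em x0 (Or.inr ⟨rfl, h, h'⟩)]; rfl

/-- `u` is the standard graded structure on the wall variables; `wv i y` is the holonomy variable
dual to `y` -/
structure Gs (w : ∀ i, Wall p (Gm p) (g0 p) (s i)) (u : Gu p s t (Σ i, s i)) where
  hys : ∀ i, u.ys i = ys (w i)
  cu : ∀ i y, (w i).kd y = none → u.cu i y = ⟨i, y⟩
  hd : ∀ q, u.d q = (w q.1).deg q.2
  sur : ∀ i γ, ∃ y, (w i).kd y = none ∧ (w i).deg y = γ
  wv : ∀ i, s i → s i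
  nr : ∀ i y, t i = false → (w i).kd (wv i y) ≠ some true
  hb : ∀ i y, t i = false → (w i).kd y = none →
    u.G.pr (g0 p - (w i).deg y) (o u.G ((u.b i).val - 1)) = z ⟨i, wv i y⟩

namespace Gs

variable {u : Gu p s t (Σ i, s i)} (r : Gs w u) (x0 : V w t)

/-- the passage -/
def pg : Pg (B w t) u (gvV x0) where
  hys := r.hys
  dB b := (w _).deg b.1.2
  inc := cq w t
  inj := cq_inj
  hd q := by
    rw [r.hd]
    by_cases h : (w q.1).kd q.2 = some (!t q.1)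
    · rw [cq_far h]; rfl
    · rw [cq_near' h]; rfl
  nm := cq_m x0
  hy i y h := by rw [r.cu i y h]; exact cq_y x0 h
  sur := r.sur

/-- the holonomy variable of a variable `m` -/
def wV (q : Xm w t) : V w t := (vsV x0).em (⟨_, r.wv _ q.1.1.1.2⟩, false)

theorem xi_eq (q : Xm w t) : (r.pg x0).xi q = -rn inl (xm x0 (r.wV x0) q) := by
  obtain ⟨⟨⟨⟨j, y⟩, b⟩, hj, hy⟩, hb⟩ := q
  obtain rfl : b = true := hb
  have h1 := pr_uz (r.pg x0).S.hO (s := ys (w j)) (v := fun x => (r.pg x0).S.em (⟨j, x⟩, true))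
    (fun x hx x' hx' e => by
      simp only [(r.pg x0).S.dm j _ hj (mem_ys.1 hx), (r.pg x0).S.dm j _ hj (mem_ys.1 hx'),
        sub_right_inj] at e
      exact (w j).inj _ _ (mem_ys.1 hx) (mem_ys.1 hx') e) (mem_ys.2 hy)
  rw [(r.pg x0).S.dm j _ hj hy] at h1
  have h2 := congrArg (kap w t) (r.hb j y hj hy)
  rw [show kap w t (u.G.pr _ _) = _ from (r.pg x0).hom _ _, kap_z_near x0 (by
    simp only at hj; rw [hj]; exact r.nr j y hj)] at h2
  simp only at hj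
  have e : (r.pg x0).S.x j = uz (r.pg x0).S.hO (ys (w j)) fun x => (r.pg x0).S.em (⟨j, x⟩, true) := by
    simp only [Gv.x, hj, Bool.not_false]
  rw [Pg.xi, xm, map_sub (rn inl), rn_z, rn_z, neg_sub, wV, ← h2, u.x_L hj, e,
    ← sub_sub_sub_cancel_right _ _ (1 : Tw _), map_sub, map_sub, h1, val_um,
    ← map_one (Tw.map (r.pg x0).hom), ← map_sub]
  rfl

theorem Xi_eq : (r.pg x0).Xi = (sp (xm x0 (r.wV x0))).map (rn inl : _ →ₐ[ZMod p] A3 w t) := by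
  refine le_antisymm (Ideal.span_le.2 ?_) (Ideal.map_le_iff_le_comap.2 (sp_le.2 fun q => ?_))
  · rintro _ ⟨q, rfl⟩
    exact r.xi_eq x0 q ▸ neg_mem (Ideal.mem_map_of_mem _ (mem_sp _ q))
  · exact Ideal.mem_comap.2 (neg_mem_iff.1 (r.xi_eq x0 q ▸ Ideal.subset_span ⟨q, rfl⟩))

theorem N_le : (r.pg x0).S.N ≤ (NN x0).map (rn inl : _ →ₐ[ZMod p] A3 w t) :=
  Gv.N_le _ fun q h1 h2 => by
    have := Ideal.mem_map_of_mem (rn inl : _ →ₐ[ZMod p] A3 w t)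
      (Ideal.subset_span ⟨q, h1, h2, rfl⟩ : z ((vsV x0).em q) ∈ NN x0)
    rwa [rn_z] at this

variable {κ α : Type} (Z : Zn (A2 p s) κ α (Fin 3))

theorem Xi_le : (r.pg x0).Xi ≤ XX x0 (r.wV x0) Z :=
  r.Xi_eq x0 ▸ le_sup_of_le_right (Ideal.map_mono le_sup_left)

theorem NN_le : (r.pg x0).S.N * (r.pg x0).S.N ≤ XX x0 (r.wV x0) Z :=
  le_sup_of_le_right (((Ideal.mul_mono (r.N_le x0) (r.N_le x0)).trans (Ideal.map_mul _ _ _).ge).trans
    (Ideal.map_mono le_sup_right))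

theorem hH {c n : ℕ} (T : Ty w c n) :
    (mx * (u.N * u.N * u.N) ⊔ H2 w t c (La p c n)).map (kap w t) ≤
      XX x0 (r.wV x0) Z * XX x0 (r.wV x0) Z ⊔ (vsV x0).HS c (La p c n) := by
  rw [Ideal.map_sup, Ideal.map_mul]
  refine sup_le ((Ideal.mul_mono (Ideal.map_le_iff_le_comap.2 fun _ h => rn_mem _ h : _ ≤ mx)
    (r.pg x0).N3_le).trans ?_) (le_sup_of_le_right (Ideal.map_le_iff_le_comap.2 fun f => kap_H x0))
  rw [Ideal.mul_sup, sup_comm]
  refine sup_le_sup (Ideal.mul_le_right.trans (Ideal.mul_mono (r.Xi_le x0 Z)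
    (sup_le (r.Xi_le x0 Z) (r.NN_le x0 Z)))) (le_trans (by rw [pow_succ, sq]) (mx_cube_le_HH
      (fun v => le_trans T.N0_pos ((vsV x0).le_mA T v)) (r.pg x0).S.N_mx ((r.N_le x0).trans
        (Ideal.map_le_iff_le_comap.2 fun f hf => rn_Ge (j := inl) (fun _ => le_rfl) (NN_Ge x0 c _ hf)))))

variable (Tv : Vt (ZMod p) X t)

theorem hA (hX : u.XI Tv ≤ Z.Pu) :
    rn inl (Ga w t (Gv.c w Tv) (fun q => z ((vsV x0).em q)) + (gvV x0).Ps Tv) -
      kap w t (Tv.A u.x u.a) ∈ XX x0 (r.wV x0) Z * XX x0 (r.wV x0) Z := by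
  set P := r.pg x0
  have hm := id_mx P.S.hO
  have e1 := Tv.A_sub hm P.S.id_N ((P.hom.map (u.id_XI Tv)).sup (hm.mul P.id_Xi)) P.id_Xi P.S.N_mx
    P.S.x_N P.x_mx (fun j _ => P.S.N_mx (P.S.a_N j)) P.x_Xi (fun _ => P.x_M) fun j hj =>
      In.eq (In.sub (Ideal.mem_sup_left (P.a_XI Tv hj)) (Ideal.mem_sup_right (P.la_sub Tv j))) (by abel)
  convert Ideal.mul_mono (r.Xi_le x0 Z) (sup_le (sup_le (r.Xi_le x0 Z) (sup_le
    (le_sup_of_le_left (Ideal.map_mono hX)) (Ideal.mul_le_right.trans (r.Xi_le x0 Z))))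
    (Ideal.mul_le_right.trans (r.NN_le x0 Z))) e1 using 1
  rw [Gv.A_ext, map_add, ← (gvV x0).rn_Ga Tv, show kap w t (Tv.A u.x u.a) = _ from (Tv.A_mp P.hom _ _).symm]
  simp only [P.um_a]
  rfl

theorem row (he : Tv.e * Tv.e = 1) (hs : (Tv.T 0).s ≠ 0) (c La : ℕ) {f : A2 p s} (hf : f ∈ u.XI Tv) :
    Tg.pz p _ _ (kap w t f) ∈ (sp fun q : Xm w t => pd ((vsV x0).em q.1.1)
      (Ga w t (Gv.c w Tv) (fun q => z ((vsV x0).em q)) + (gvV x0).Ps Tv)) ⊔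
      (vsV x0).K c La ⊔ mx * sp (xm x0 (r.wV x0)) := by
  set J := _ ⊔ (vsV x0).K c La ⊔ mx * sp (xm x0 (r.wV x0))
  let P := r.pg x0
  let g := gvV x0
  have k1 : mx * (g.N * g.N) ≤ J := le_sup_of_le_left (le_sup_of_le_right
    (Ideal.mul_le_right.trans (mx_sq_le_KK (NN_mx x0) (NN_Ge x0 c La))))
  have k2 : mx * P.Xi ≤ J.comap (Tg.pz p _ _) := by
    rw [← Ideal.map_le_iff_le_comap, Ideal.map_mul, r.Xi_eq x0]
    refine le_sup_of_le_right (Ideal.mul_mono (Ideal.map_le_iff_le_comap.2 fun _ => map_mx _ pz_mx)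
      (Ideal.map_le_iff_le_comap.2 (Ideal.map_le_iff_le_comap.2 fun f hf => ?_)))
    rwa [Ideal.mem_comap, Ideal.mem_comap, map_rn_inl pz_inl]
  have k3 : g.Yl Tv ≤ J := g.Yl_le Tv P.sur he hs (fun q => by
    rw [g.A_eq' Tv]
    exact Ideal.mem_sup_left (Ideal.mem_sup_left (mem_sp _ q))) k1
  have hm := id_mx P.S.hO
  have hY := (P.S.G.id_sp {f | ∃ j, t j = false ∧ f = o _ ((P.S.a j).val - (1 + Tv.la P.S.x j))}).sup
    (hm.mul P.id_Xi)
  have k4 : u.XI Tv ≤ (_ ⊔ mx * (P.S.N * P.S.N)).comap P.ka := sup_le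
    ((P.hom.comap (hY.sup (hm.mul (P.S.id_N.mul P.S.id_N)))).sp_le.2 (by
      rintro _ ⟨j, hj, rfl⟩
      rw [Ideal.mem_comap, ← o_map P.hom, map_sub, map_add, map_one, ← val_um, P.um_a, ← Tv.la_mp]
      exact Ideal.mem_sup_left (In.eq (In.add (Ideal.mem_sup_left (Gr.mem_sp ⟨j, hj, rfl⟩))
        (Ideal.mem_sup_right (P.la_sub Tv j))) (by abel))))
    (Ideal.map_le_iff_le_comap.1 (P.N3_le.trans (sup_le
      (le_sup_of_le_right (by rw [mul_assoc]; exact Ideal.mul_mono_left P.S.N_mx))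
      (le_sup_of_le_left (le_sup_of_le_right (by
        rw [mul_comm]
        exact Ideal.mul_mono_left (sup_le P.Xi_mx (Ideal.mul_le_left.trans P.S.N_mx))))))))
  refine (sup_le (sup_le (Ideal.span_le.2 ?_) k2) ?_ : _ ≤ J.comap (Tg.pz p _ _)) (k4 hf)
  · rintro _ ⟨γ, _, ⟨j, hj, rfl⟩, rfl⟩
    rw [SetLike.mem_coe, Ideal.mem_comap, g.hom_pz P.dB, ← o_map (g.hom_pz P.dB), map_sub, map_add,
      map_one, ← val_um, g.pz_a, ← Tv.la_mp]
    rw [show (fun i => um (g.hom_pz P.dB) (P.S.x i)) = g.x from funext (g.pz_x P.dB)]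
    exact k3 (Ideal.subset_span ⟨γ, _, ⟨j, hj, rfl⟩, rfl⟩)
  · rw [← Ideal.map_le_iff_le_comap, Ideal.map_mul, Ideal.map_mul]
    have : P.S.N.map (Tg.pz p _ _) ≤ g.N := Ideal.map_le_iff_le_comap.2 fun f hf => g.pz_N P.dB hf
    exact (Ideal.mul_mono (Ideal.map_le_iff_le_comap.2 fun _ => map_mx _ pz_mx)
      (Ideal.mul_mono this this)).trans k1

end Gs

/-- **The algebraic data at a vertex, with the action of `Tv`.**  Everything lives over `A2`. -/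
structure VB {c n : ℕ} (T : Ty w c n) (u : Gu p s t (Σ i, s i)) (Tv : Vt (ZMod p) X t) (κ α : Type)
    [Fintype α] where
  f : ∀ i, Wf (w i) (N0 c)
  W0 : ∀ i, W0w (w i)
  hN : ∀ i, (f i).I ≤ Ge p (ZMod p) (fun x => N0 c + (w i).F x) (N1 c)
  hK : ∀ i, (f i).KU ≤ mx ^ 2 ⊓ Ge p (ZMod p) (fun x => N0 c + (w i).F x) (3 * La p c n + 1)
  io : ∀ i, O p (ZMod p) (s i) →ₐ[ZMod p] A2 p s
  hy : ∀ i x, (w i).kd x = none → io i (z x) = z ⟨i, x⟩
  adm : ∀ i x, (w i).kd x ≠ none → Io.Adm T id i x (io i (z x) - z ⟨i, x⟩)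
  Z : Zn (A2 p s) κ α (Fin 3)
  ok : Z.Ok
  hm : Z.m = mx
  hγ : 2 * Z.γ ≤ 3 * c
  be : B w t → α
  be_inj : Injective be
  eps : ∀ b, Z.ε (be b) = z b.1
  eps0 : ∀ a, a ∉ range be → Z.ε a = 0
  pa : ∀ b, (T.σ b.1.1).sc b.1.2 ≤ Z.pa (be b)
  hE : ∀ a, Z.E a ∈ mx
  DE : ∀ (b : B w t) a, pd b.1 (Z.E a) ∈ mx
  hI : ∀ i, Z.IK i ≤ (f i).I.map (io i) ⊔ mx ^ La p c n
  xi : u.XI Tv ≤ Z.Pu
  row : ∀ a, a ∉ range be → Z.E a ∈ u.XI Tv ∨ La p c n + 3 * Z.γ ≤ Z.pa a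
  id : ∑ i, (if t i = true then io i (w i).W else -io i (w i).W) + Tv.A u.x u.a -
    ∑ a, Z.ε a * Z.E a ∈ Z.Qd ⊔ Z.Eps * Z.Eps ⊔ (mx * (u.N * u.N * u.N) ⊔ mx ^ La p c n)

namespace VB

variable {c n : ℕ} {T : Ty w c n} {u : Gu p s t (Σ i, s i)} {Tv : Vt (ZMod p) X t} {κ α : Type}
  [Fintype α] (v : VB T u Tv κ α) (r : Gs w u) (he : Tv.e * Tv.e = 1) (hs : (Tv.T 0).s ≠ 0)

/-- the passage to `VA` -/
def toA (x0 : V w t) : VA T x0 κ α :=
  { v with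
    hI := fun i => (v.hI i).trans (sup_le_sup_left ((T.pow_le_H2 le_rfl).trans (inf_le_inf_right _
      (Ideal.pow_le_pow_right (by omega)))) _)
    A := Tv.A u.x u.a
    H := mx * (u.N * u.N * u.N) ⊔ H2 w t c (La p c n)
    id := SetLike.le_def.1 (sup_le_sup_left (sup_le_sup_left (T.pow_le_H2 le_rfl) _) _) v.id
    cf := Gv.c w Tv
    hc := fun i x _ _ => Gv.c_ne Tv he hs i x
    Ps := (gvV x0).Ps Tv
    Ps3 := (gvV x0).Ps_N Tv
    wv := r.wV x0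
    hH := r.hH x0 v.Z T
    hA := Ideal.mem_sup_left (r.hA x0 v.Z Tv v.xi)
    row := fun a ha => (v.row a ha).imp_left (r.row x0 Tv he hs c _) }

include v r he hs in
/-- **the vertex identity with non vanishing cubic term** -/
theorem vx (hp : p ≠ 2) {D : ∀ i, ZMod p → s i} (hD : ∀ i d, (w i).kd (D i d) = none)
    (hd : ∀ i d, (w i).deg (D i d) = (qd i, d)) :
    ∃ (V : Type) (_ : Fintype V) (x : VxH w t (N0 c) (La p c n) V),
      ∀ d : Fin 3 → ZMod p, ∑ i, (if t i = true then d i else 1 - d i) = 1 →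
        x.cub (fun i => D i (d i)) ≠ 0 := by
  let x0 : V w t := ⟨(⟨0, D 0 0⟩, false), Cs.ok_y (hD 0 0)⟩
  obtain ⟨x, hx⟩ := (v.toA r he hs x0).vxH
  exact ⟨_, _, x, fun d h => (hx _ fun i => hD i _).symm ▸ (gvV x0).cub_ne Tv hp he hs hD hd d h⟩

end VB

end Crest.Agent.N255.Ma

end
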