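import Crest.Agent.N255.Vd.End
import Crest.Agent.N255.Cs.PM
import Crest.Agent.N255.Ma.Top2
import Crest.Agent.N255.Ma.Sig
import Crest.Agent.N255.Vf.Adm
import Crest.Agent.N255.Wg.Wf

/-!
# Row 255 (helper39): the vertex identity `VxW` from the facts on `Vd`
-/

set_option autoImplicit false
open Set Module Sum

noncomputable section

namespace Crest.Agent.N255.Ma.Vd
open Tp Nv Pt Lv En Wn Le Cs Cs.Tw _root_.N255.Core _root_.N255.Dr _root_.N255.Dr.O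
open _root_.N255.Wt (La)

variable {F : Subgroup F3} {S : Type} [MulAction F3 S] {X : Type} [TopologicalSpace X]
  [MulAction F X] [ContinuousConstSMul F X] {p : ℕ} [Fact p.Prime] {J : Fin 3 → Type}
  [∀ i, Fintype (J i)] {g : Geo F (ZMod p) S X} {u R₀ : ℝ} {n : ℕ} {τ : ∀ i, Ty (J i)} {v : F3}
  {h o : Fin 3 → Bool} (D : Vd g u R₀ n τ v h o)

open Classical in
/-- the graded variables -/
abbrev yu : Gu p (fun i => Uv p (J i)) o (Σ i, Uv p (J i)) where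
  ys _ := Finset.univ.image fun γ => (inr true, γ)
  cu i y := ⟨i, y⟩
  G := G2 p J
  d := d2 p J
  hO := G2_z p J
  b := D.bV
  hb := D.bV_U

theorem yu_a : D.yu.a = aV p J := funext fun i => Units.ext <| by
  classical
  rw [← sub_left_inj (a := 1), Gu.a, aV, uV, uz_sub, uz_sub]
  exact congrArg _ (Finset.sum_image fun _ _ _ _ e => (Prod.ext_iff.1 e).2)

theorem yu_x : D.yu.x = xM p J o := funext fun i => by
  rcases Bool.eq_false_or_eq_true (o i) with q | q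
  · rw [Gu.x_M _ q, yu_a, aV_M i q]
  · rw [Gu.x_L _ q]; exact D.bV_L q

theorem yu_N : D.yu.N = NV p J o := by
  refine le_antisymm ((id_NV p o).sp_le.2 ?_) (Ideal.span_le.2 ?_)
  · rintro _ ⟨j, rfl⟩
    rw [yu_x]; exact xM_N p o j
  · rintro _ ⟨j, γ, rfl⟩
    have := D.yu.id_N γ _ (D.yu.x_N j)
    rw [yu_x, xM, uV_sub] at this
    exact Io.pr_x2 (G2_z p J) j (inr (o j)) γ ▸ this

theorem yu_XI {Tv : Vt (ZMod p) X o} (e : ∀ j, Tv.la (xM p J o) j = D.V0.la (xM p J o) j) :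
    D.yu.XI Tv = D.XV := by
  refine le_antisymm (sup_le (D.id_XV.sp_le.2 ?_) (D.yu_N ▸ D.N3_le_XV))
    (sup_le ((D.yu.id_XI Tv).sp_le.2 ?_) (D.yu_N ▸ le_sup_right))
  · rintro _ ⟨j, q, rfl⟩
    have := D.ja_end j
    rw [Ms.ja, if_neg (by simp [q])] at this
    rw [yu_x, yu_a, e]; exact this
  · rintro _ ⟨j, rfl⟩
    rcases Bool.eq_false_or_eq_true (o j) with q | q
    · rw [Ms.ja_M q (aV_M j q), map_zero]; exact zero_mem _
    · have := D.yu.a_XI Tv q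
      rw [yu_x, yu_a, e] at this
      rw [Ms.ja, if_neg (by simp [q])]; exact this

variable {w : ∀ i, Wall p (Cs.Gm p) (Cs.g0 p) (Uv p (J i))}

/-- the standard structure -/
def ygs (hk : ∀ i x, (w i).kd x = (τ i).kdU p x) (hd : ∀ i x, (w i).deg x = x.2) : Gs w D.yu where
  hys i := Finset.ext fun x => by
    classical
    rw [mem_ys, hk, Io.kdU_none]
    exact Finset.mem_image.trans ⟨fun ⟨_, _, e⟩ => e ▸ rfl, fun e => ⟨x.2, Finset.mem_univ _, e ▸ rfl⟩⟩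
  cu _ _ _ := rfl
  hd q := (hd q.1 q.2).symm
  sur i γ := ⟨(inr true, γ), hk _ _, hd _ _⟩
  wv _ y := (inr false, Cs.g0 p - y.2)
  nr i y _ := by rw [hk]; simp [Ty.kdU]
  hb i y q _ := by
    show (G2 p J).pr _ (Tw.o (G2 p J) ((D.bV i).val - 1)) = _
    rw [D.bV_L q, xM, q, uV_sub, hd]
    exact Io.pr_x2 (G2_z p J) i (inr false) _

variable (K : Set X) (ρ : D.Ix → Ch (ZMod p) 4 X)

/-- the generator of a far variable -/
def ybe (hk : ∀ i x, (w i).kd x = (τ i).kdU p x) (b : _root_.N255.Wt.B w o) : D.Ga K ρ :=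
  inl (⟨⟨b.1.1, b.1.2.1⟩, (hk _ _).symm.trans b.2⟩, b.1.2.2)

theorem ybe_inj (hk : ∀ i x, (w i).kd x = (τ i).kdU p x) : Function.Injective (D.ybe K ρ hk) := by
  rintro ⟨⟨i, x, γ⟩, a⟩ ⟨⟨i', x', γ'⟩, a'⟩ e
  obtain ⟨e, e'⟩ := Prod.ext_iff.1 (inl_injective e)
  cases congrArg Subtype.val e
  cases e'
  rfl

theorem ybe_range (hk : ∀ i x, (w i).kd x = (τ i).kdU p x) {a : D.Ga K ρ}
    (ha : a ∉ range (D.ybe K ρ hk)) : ∃ b, a = inr b := by
  rcases a with ⟨⟨⟨i, x⟩, e⟩, γ⟩ | b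
  · exact (ha ⟨⟨⟨i, x, γ⟩, (hk _ _).trans e⟩, rfl⟩).elim
  · exact ⟨b, rfl⟩

theorem Z_eps (a : Fr τ o) (γ : Cs.Gm p) : (D.Z K ρ).ε (inl (a, γ)) = z ⟨a.1.1, a.1.2, γ⟩ :=
  Io.pr_x2 (G2_z p J) _ _ _

theorem XV_le_Pu : D.XV ≤ (D.Z K ρ).Pu := by
  rw [← D.span_bX, Ideal.span_le]
  rintro _ ⟨i, rfl⟩
  exact Ideal.mem_iSup_of_mem (inr (inl i)) (Ideal.mem_iSup_of_mem ⟨rfl, rfl⟩
    (Ideal.mem_span_singleton_self _))

theorem Z_row (b : (D.Y K ρ).Bx D.GV D.ε D.βX) :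
    (D.Z K ρ).E (inr b) ∈ D.XV ∨ n ≤ (D.Z K ρ).pa (inr b) + 4 := by
  rcases b with i | i
  · exact .inl (D.span_bX ▸ Ideal.subset_span ⟨i, rfl⟩)
  · rcases Lz.Gz.bx_inr (dp := D.dp) (b := D.bX) i with e | ⟨e, -⟩
    · exact .inl (show (D.Y K ρ).bx _ _ _ _ _ ∈ _ from e ▸ zero_mem _)
    · exact .inr e

theorem LV_le_sup : D.LV ≤ D.XV ⊔ (D.Z K ρ).Eps :=
  sup_le_sup_left (Ideal.span_mono (by
    rintro _ ⟨i, γ, q, rfl⟩
    exact ⟨inl (⟨⟨i, inr false⟩, by simp [Ty.kb, q]⟩, γ), D.Z_eps K ρ _ _⟩)) _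

theorem Z_IK (C : D.Cmp) (i : Fin 3) {I : Ideal (OU p (J i))} (gr : (GU p (J i)).Id I)
    (ci : CI (D.ω i).Pc I (cur (D.ω i).gU)) : (D.Z K ρ).IK i ≤ I.map (C.io i) ⊔ mx ^ (n - 2) :=
  Lz.Gz.IK_le (C.hom i) (fun a => D.src.q_ce a i) ((G2_mx p J).pow _) (D.P_ce i ▸ C.cmp i) gr
    (by rw [← D.P_ce i] at ci; exact ci) bot_le

variable {D K} {R : ℝ} {σ : Fin 3 → Ch (ZMod p) 3 X} {c B : ℕ}

/-- the weights of the three walls -/
def yT (hs : ∀ i, (D.ω i).Sig R (σ i)) (hc : ∀ i j, (τ i).dp j ≤ c) (h3 : 3 ≤ c)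
    (hB : ∀ i, (Finset.univ.filter fun x => ((τ i).sg p (hc i)).sc x ≤ 60 * c).card ≤ B) :
    _root_.N255.Wt.Ty (fun i => (hs i).wall (hc i)) c B :=
  ⟨fun i => (τ i).sg p (hc i), fun _ _ => rfl, fun _ _ => rfl, h3, hB⟩

/-- **the vertex identity on `Vd`** -/
theorem vxW [T2Space X] (hp : p ≠ 2) (hs : ∀ i, (D.ω i).Sig R (σ i)) (hc : ∀ i j, (τ i).dp j ≤ c)
    (h3 : 3 ≤ c) (hB : ∀ i, (Finset.univ.filter fun x => ((τ i).sg p (hc i)).sc x ≤ 60 * c).card ≤ B)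
    (hn : La p c B + 16 ≤ n) (O : D.Off K R) (r : D.Rc K R σ) (C : D.Cmp)
    (wf : ∀ i, ∃ f, Wd.Wfa (hs i) (hc i) (3 * La p c B + 1) f)
    (ok : (D.Z K r.ρ).Ok)
    (hJ : ∀ a, (D.Z K r.ρ).E a ∈
      Jt.Jl p (ZMod p) {q : Σ i, Uv p (J i) | (τ q.1).kb q.2.1 ≠ some (!o q.1)}) :
    VxW (fun i => (hs i).wall (hc i)) o c B := by
  choose f wf using wf
  have hk : ∀ i x, ((hs i).wall (hc i)).kd x = (τ i).kdU p x := fun _ _ => rfl
  have eX : D.yu.XI (D.vt hs O.le r) = D.XV := D.yu_XI fun _ => rfl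
  have hm : (mx : Ideal (OV p J)) ^ (n - 2) ≤ mx ^ La p c B := Ideal.pow_le_pow_right (by omega)
  let x : PVxM (yT hs hc h3 hB) D.yu (D.vt hs O.le r) D.Ix (D.Ga K r.ρ) :=
    { f := f
      W0 := fun i => (wf i).W0
      hN := fun i => (wf i).hN
      hK := fun i => (wf i).hK
      io := C.io
      hy := C.hy (T := yT hs hc h3 hB) (hc := hc) fun _ => rfl
      adm := C.adm (hc := hc) fun _ => rfl
      Z := D.Z K r.ρ
      ok := ok
      hm := rfl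
      hγ := show 2 * 4 ≤ 3 * c by omega
      be := D.ybe K r.ρ hk
      be_inj := D.ybe_inj K r.ρ hk
      eps := fun b => D.Z_eps K r.ρ _ _
      eps0 := fun a ha => by obtain ⟨b, rfl⟩ := D.ybe_range K r.ρ hk ha; rfl
      pa := fun _ => le_rfl
      hE := fun a => Jt.Jl_mx (hJ a)
      DE := fun b a => Jt.pd_Jl (not_not.2 b.2) (hJ a)
      hI := fun i => (D.Z_IK K r.ρ C i (wf i).gr (wf i).ci).trans (sup_le_sup_left hm _)
      xi := eX ▸ D.XV_le_Pu K r.ρ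
      row := fun a ha => by
        obtain ⟨b, rfl⟩ := D.ybe_range K r.ρ hk ha
        exact (D.Z_row K r.ρ b).imp (eX ▸ id) fun q => show La p c B + 3 * 4 ≤ _ by omega
      GU := fun i => GU p (J i)
      gU := fun i => (D.ω i).gU
      aU := fun _ => uv p (inr true)
      bU := fun _ => uv p (inr false)
      σ := σ
      hW := fun _ => rfl
      hio := C.hom
      b := D.bV
      ioa := fun j => D.yu_a ▸ C.a j
      iob := C.b
      g := D.GV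
      PK := fun i => (D.ω i).Pc
      hσ := fun i => (hs i).mem.1
      hg := fun _ => D.fam.cu _
      cmp := fun i e he => (C.cmp i e he).mono hm
      ρ := ∑ k, r.ρ k
      hρ := r.bd
      pp := Lz.Gz.pp_dec (hm := G2_mx p J) r.mem (fun a _ q => D.src.q_van a q.ne') fun _ => D.fam.cu _
      L := D.LV
      hL := D.id_LV
      Lm := D.LV_le
      XL := eX ▸ D.XV_le_LV
      LX := eX ▸ D.LV_le_sup K r.ρ
      hb := D.yu_x ▸ vt_hb hs O.le r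
      eh := D.yu_x ▸ eh hs O.le r O
      ee := D.yu_a ▸ ee hs O.le r O }
  exact x.vx (D.ygs hk fun _ _ => rfl) (by
    rw [vt_e]; exact_mod_cast Lev.eps_sq g.L) ((hs 0).T_ne O.le) hp (fun _ _ => rfl) fun _ _ => rfl

end Crest.Agent.N255.Ma.Vd

end
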